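import Vale.Agent.P030.T.V1AF

/-!
# P030, irrationality measure: the archimedean estimate near `x = G / 2`

Only the columns of the group `z1` depend on `x`; they change by `(x - G/2)` times the functions of
the group `z8`, which are read on the same circle.
-/

set_option linter.unusedVariables false

namespace Vale.Agent.N030

open Vale.Agent.P030 Vale.Agent.P030.T

/-- the archimedean bound at all real points within `exp (-τ s)` of `G / 2` -/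
def ArU (P : Par) (c0 : ℕ) (A τ : ℝ) : Prop :=
  ∀ ε : ℝ, 0 < ε → ∃ s0 : ℕ, ∀ s, s0 ≤ s → ∀ x : ℝ, |x - Gc / 2| ≤ Real.exp (-(τ * s)) →
    ∀ σ, Adm P c0 s σ → |(Mx (P.D0 * s) x σ).det| ≤ Real.exp (-(A - ε) * (s : ℝ) ^ 2)

theorem ArU.mono {P : Par} {c0 : ℕ} {A A' τ : ℝ} (h : A' ≤ A) (hA : ArU P c0 A τ) :
    ArU P c0 A' τ := by
  intro ε hε
  obtain ⟨s0, h0⟩ := hA ε hε
  refine ⟨s0, fun s hs x hx σ hσ => (h0 s hs x hx σ hσ).trans (Real.exp_le_exp.2 ?_)⟩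
  nlinarith [sq_nonneg (s : ℝ)]

section nodes

open MeasureTheory Finset Matrix Vale.Agent.P030.H866

theorem arU_of_nodes (P : Par) (c0 : ℕ) (hcard : ∑ g : Gp, P.ht g = 8 * P.D0) (hD0 : 0 < P.D0)
    (r : Gp → ℝ) (hr : ∀ g, 0 < r g) (hr1 : ∀ g, r g < 1)
    (h0 : ∀ g j, Sm (r g) (tup0 g j)) (h1 : ∀ g j, Sm (r g) (tup1 g j))
    (T : Tot P r) (Nm : ℕ → ℂ → (Fin 8 → ℂ) → ℝ) (hN0 : ∀ s z v, 0 ≤ Nm s z v) (E : ℝ)
    (A : Set ℂ) (hA : ∀ g θ, Sc g.cusp (circleMap 0 (r g) θ) ∈ A)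
    (hnode : ∀ η : ℝ, 0 < η → ∃ s0 : ℕ, ∀ s, s0 ≤ s →
      NormBoundOn A (P.D0 * s) (Nm s) (Real.exp (-(E - η) * (s : ℝ) ^ 2)))
    (ω ω' : Gp → ℝ) (τ : ℝ)
    (hω : ∀ η : ℝ, 0 < η → ∃ s0 : ℕ, ∀ s, s0 ≤ s → ∀ x : ℝ,
      |x - Gc / 2| ≤ Real.exp (-(τ * s)) → ∀ g θ,
      Nm s (Sc g.cusp (circleMap 0 (r g) θ)) (fun j => ∑ g', ((T.al g g' : ℝ) : ℂ) *
        Phi (x : ℂ) g' j (circleMap 0 (r g) θ)) ≤ Real.exp (s * (ω g + η)))
    (hω' : ∃ s0 : ℕ, ∀ s, s0 ≤ s → ∀ x : ℝ, |x - Gc / 2| ≤ Real.exp (-(τ * s)) → ∀ g θ,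
      Nm s (Sc g.cusp (circleMap 0 (r g) θ)) (fun j =>
        Phi (x : ℂ) g j (circleMap 0 (r g) θ)) ≤ Real.exp (s * ω' g)) :
    ArU P c0 (E - Qm P r ω) τ := by
  classical
  obtain ⟨C1, hC1, hb1⟩ := sum_bet_le P r ω
  obtain ⟨C2, hC2, hb2⟩ := abs_bet_le P r ω c0
  obtain ⟨C3, hC30, hC3⟩ : ∃ C3 : ℝ, 0 ≤ C3 ∧ ∀ g, |ω' g| + |ω g| ≤ C3 :=
    ⟨∑ g : Gp, (|ω' g| + |ω g|), Finset.sum_nonneg fun g _ => by positivity, fun g =>
      Finset.single_le_sum (f := fun g : Gp => |ω' g| + |ω g|) (fun g _ => by positivity)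
        (Finset.mem_univ g)⟩
  obtain ⟨Q, hQ⟩ : ∃ Q, Q = Qm P r ω := ⟨_, rfl⟩
  rw [← hQ] at hb1 ⊢
  clear hQ
  intro ε hε
  obtain ⟨η, hη0, h8⟩ := exists_eta P.D0 hε
  obtain ⟨s1, hs1⟩ := hnode η hη0
  obtain ⟨s2, hs2⟩ := hω η hη0
  obtain ⟨s3, hs3⟩ := hω'
  obtain ⟨s4, hs4⟩ := exists_nat_gt ((C1 + 34 * c0 * C2 + 289 * c0 * C3) / (ε / 2))
  refine ⟨max (max s1 s2) (max s3 (max s4 1)), fun s hs x hx σ hσ => ?_⟩
  have hss1 : s1 ≤ s := le_trans (le_trans (le_max_left _ _) (le_max_left _ _)) hs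
  have hss2 : s2 ≤ s := le_trans (le_trans (le_max_right _ _) (le_max_left _ _)) hs
  have hss3 : s3 ≤ s := le_trans (le_trans (le_max_left _ _) (le_max_right _ _)) hs
  have hss4 : s4 ≤ s := le_trans (le_trans (le_trans (le_max_left _ _) (le_max_right _ _))
    (le_max_right _ _)) hs
  have hss5 : 1 ≤ s := le_trans (le_trans (le_trans (le_max_right _ _) (le_max_right _ _))
    (le_max_right _ _)) hs
  have hsr : (1 : ℝ) ≤ s := by exact_mod_cast hss5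
  rw [abs_det_eq T σ hσ.1 hr hr1 h0 h1]
  -- the bound
  have hM := det_colE_le_norm_on (D := P.D0 * s) (B := Real.exp (-(E - η) * (s : ℝ) ^ 2))
    (Real.exp_pos _).le (Nm := Nm s) (hN0 s) (hs1 s hss1) (fun b => (σ b).1.cusp)
    (fun b => r (σ b).1) (fun b => hr _) (fun b => hr1 _) (fun b θ => hA _ θ) (fun b => (σ b).2)
    (fun b => if Full T σ b then Real.exp (s * (ω (σ b).1 + η)) else Real.exp (s * ω' (σ b).1))
    (PsiB T σ (x : ℂ)) (fun b j => integrable_PsiB T σ hr h0 h1 _ b j)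
    (fun b => by
      refine Filter.Eventually.of_forall fun θ => ?_
      by_cases hf : Full T σ b
      · simp only [PsiB, if_pos hf]
        exact hs2 s hss2 x hx (σ b).1 θ
      · simp only [PsiB, if_neg hf]
        exact hs3 s hss3 x hx (σ b).1 θ)
  refine hM.trans ?_
  have hfin := prod_cols_le T σ c0 hcard hD0 hr ω ω' (C1 := C1) hη0.le hC30 hC3 (hb1 s) hss5
    (fun c hc => hb2 s hss5 c hc) hσ
    (fun b => if Full T σ b then Real.exp (s * (ω (σ b).1 + η)) else Real.exp (s * ω' (σ b).1))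
    (fun b => by split_ifs <;> exact (Real.exp_pos _).le)
    (fun b hb => by rw [if_pos hb]) (fun b hb => by rw [if_neg hb])
  refine (mul_le_mul_of_nonneg_left hfin (Real.exp_pos _).le).trans ?_
  rw [← Real.exp_add]
  refine Real.exp_le_exp.2 ?_
  exact final_arith hε hsr h8 (hs4.le.trans (by exact_mod_cast hss4))

theorem evl_zero' (t : ℂ) : evl 0 t = 0 := by
  unfold evl
  simp

theorem tup1_z1 (j : Fin 8) : tup1 .z1 j = -tup0 .z8 j := by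
  fin_cases j <;> simp [tup1, tup0]

theorem tup1_ne {g : Gp} (hg : g ≠ .z1) (j : Fin 8) : tup1 g j = 0 := by
  cases g <;> first | rfl | exact absurd rfl hg

/-- the dependence on `x` -/
theorem Phi_shift (x : ℝ) (g : Gp) (j : Fin 8) (t : ℂ) :
    Phi (x : ℂ) g j t = AR.tupC g t j -
      (if g = .z1 then ((x - Gc / 2 : ℝ) : ℂ) else 0) * AR.tupC .z8 t j := by
  rw [← Phi_eq_tupC, ← Phi_eq_tupC]
  unfold Phi
  rw [tup1_ne (g := .z8) (by decide) j, evl_zero']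
  by_cases hg : g = .z1
  · subst hg
    rw [if_pos rfl, tup1_z1, evl_neg]
    push_cast
    ring
  · rw [if_neg hg, tup1_ne hg, evl_zero']
    ring

theorem tot_shift (al : Gp → ℝ) (x : ℝ) (t : ℂ) :
    (fun j => ∑ g', ((al g' : ℝ) : ℂ) * Phi (x : ℂ) g' j t) =
      ∑ g', ((al g' : ℝ) : ℂ) • AR.tupC g' t
        - (((al .z1 * (x - Gc / 2) : ℝ)) : ℂ) • AR.tupC .z8 t := by
  classical
  funext j
  rw [Pi.sub_apply, Finset.sum_apply, Pi.smul_apply, smul_eq_mul]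
  have h1 : ∀ g', ((al g' : ℝ) : ℂ) * Phi (x : ℂ) g' j t
      = (((al g' : ℝ) : ℂ) • AR.tupC g' t) j
        - (if g' = .z1 then (((al .z1 * (x - Gc / 2) : ℝ)) : ℂ) * AR.tupC .z8 t j else 0) := by
    intro g'
    rw [Phi_shift, Pi.smul_apply, smul_eq_mul]
    by_cases hg : g' = .z1
    · rw [if_pos hg, if_pos hg, hg, Complex.ofReal_mul]
      ring
    · rw [if_neg hg, if_neg hg]
      ring
  rw [Finset.sum_congr rfl fun g' _ => h1 g', Finset.sum_sub_distrib, Finset.sum_ite_eq',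
    if_pos (Finset.mem_univ _)]

theorem tot_z8 (al : Gp → ℝ) (h1 : al .z8 = 1) (h8 : ∀ g', g' ≠ .z8 → al g' = 0) (t : ℂ) :
    ∑ g', ((al g' : ℝ) : ℂ) • AR.tupC g' t = AR.tupC .z8 t := by
  rw [Finset.sum_eq_single Gp.z8]
  · rw [h1, Complex.ofReal_one, one_smul]
  · intro b _ hb
    rw [h8 b hb, Complex.ofReal_zero, zero_smul]
  · intro h
    exact absurd (Finset.mem_univ _) h

theorem two_le_exp {y : ℝ} (hy : 1 ≤ y) : 2 ≤ Real.exp y := by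
  have := Real.add_one_le_exp y
  linarith

end nodes

section det

open MeasureTheory Finset Matrix Filter Topology Set Vale.Agent.P030.H866
open Vale.Agent.P030.H905 (sharpN)
open Vale.Agent.P030.H265 (WallData)

theorem sharp_sub_le {κ ι : Type} [DecidableEq ι] [Fintype ι] [Fintype κ] (G : WallData κ ι 8)
    (W : Fin 8 → ℂ → ℝ) (s : ℝ) (z : ℂ) (R : Matrix (Fin 8) (Fin 8) ℂ) (u w : Fin 8 → ℂ) (c : ℂ) :
    sharpN G W s z (R *ᵥ (u - c • w)) ≤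
      sharpN G W s z (R *ᵥ u) + ‖c‖ * sharpN G W s z (R *ᵥ w) := by
  rw [Matrix.mulVec_sub, Matrix.mulVec_smul]
  refine (map_sub_le_add _ _ _).trans (le_of_eq ?_)
  rw [map_smul_eq_mul]

theorem near_tot {κ ι : Type} [DecidableEq ι] [Fintype ι] [Fintype κ]
    {P : Par} {r : Gp → ℝ} (T : Tot P r)
    (R : Matrix (Fin 8) (Fin 8) ℂ) (G : WallData κ ι 8) (W : Fin 8 → ℂ → ℝ)
    (ω : Gp → ℝ) (hr : ∀ g, 0 < r g)
    (hloc : ∀ g, ∃ B : ℝ, ∀ t : ℂ, ‖t‖ = r g →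
      Loc G W B (ω g) (Sc g.cusp t) (R *ᵥ ∑ g', ((T.al g g' : ℝ) : ℂ) • AR.tupC g' t))
    (h8 : ∀ g', g' ≠ .z8 → T.al .z8 g' = 0) (h1z : ∀ g, g ≠ .z1 → T.al g .z1 = 0)
    (hr8 : r .z8 = r .z1) {τ : ℝ} (hτ : ω .z8 - ω .z1 ≤ τ) :
    ∀ η : ℝ, 0 < η → ∃ s0 : ℕ, ∀ s, s0 ≤ s → ∀ x : ℝ,
      |x - Gc / 2| ≤ Real.exp (-(τ * s)) → ∀ g θ,
      sharpN G W s (Sc g.cusp (circleMap 0 (r g) θ)) (R *ᵥ fun j => ∑ g', ((T.al g g' : ℝ) : ℂ) *
        Phi (x : ℂ) g' j (circleMap 0 (r g) θ)) ≤ Real.exp (s * (ω g + η)) := by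
  intro η hη
  have hη2 : 0 < η / 2 := by positivity
  obtain ⟨s1, h1⟩ := loc_bound G W hr
    (fun g t => R *ᵥ ∑ g', ((T.al g g' : ℝ) : ℂ) • AR.tupC g' t) hloc hη2
  obtain ⟨s2, h2⟩ := exists_nat_ge (2 / η)
  refine ⟨max s1 s2, fun s hs x hx g θ => ?_⟩
  have hs1 : s1 ≤ s := (le_max_left _ _).trans hs
  have hs2 : (s2 : ℝ) ≤ s := by exact_mod_cast (le_max_right _ _).trans hs
  have hs0 : (0 : ℝ) ≤ s := Nat.cast_nonneg s
  have hsη : 1 ≤ s * (η / 2) := by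
    have h3 := h2.trans hs2
    rw [div_le_iff₀ hη] at h3
    linarith
  rw [tot_shift (T.al g)]
  refine (sharp_sub_le G W _ _ R _ _ _).trans ?_
  have h3 : sharpN G W s (Sc g.cusp (circleMap 0 (r g) θ))
      (R *ᵥ ∑ g', ((T.al g g' : ℝ) : ℂ) • AR.tupC g' (circleMap 0 (r g) θ))
      ≤ Real.exp (s * (ω g + η / 2)) := h1 s hs1 g θ
  rw [Complex.norm_real, Real.norm_eq_abs]
  have h4 : Real.exp (s * (ω g + η)) = Real.exp (s * (η / 2)) * Real.exp (s * (ω g + η / 2)) := by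
    rw [← Real.exp_add]; congr 1; ring
  have h5 := mul_le_mul_of_nonneg_right (two_le_exp hsη) (Real.exp_pos (s * (ω g + η / 2))).le
  rw [h4]
  by_cases hg : g = .z1
  · subst hg
    rw [T.al_self, one_mul]
    have h6 : sharpN G W s (Sc Gp.z8.cusp (circleMap 0 (r .z8) θ))
      (R *ᵥ ∑ g', ((T.al .z8 g' : ℝ) : ℂ) • AR.tupC g' (circleMap 0 (r .z8) θ))
      ≤ Real.exp (s * (ω .z8 + η / 2)) := h1 s hs1 .z8 θ
    rw [tot_z8 (T.al .z8) (T.al_self _) h8, hr8] at h6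
    have h7 : |x - Gc / 2| * sharpN G W s (Sc Gp.z1.cusp (circleMap 0 (r .z1) θ))
        (R *ᵥ AR.tupC .z8 (circleMap 0 (r .z1) θ))
        ≤ Real.exp (-(τ * s)) * Real.exp (s * (ω .z8 + η / 2)) :=
      mul_le_mul hx h6 (apply_nonneg _ _) (Real.exp_pos _).le
    have h9 : Real.exp (-(τ * s)) * Real.exp (s * (ω .z8 + η / 2))
        ≤ Real.exp (s * (ω .z1 + η / 2)) := by
      rw [← Real.exp_add]
      refine Real.exp_le_exp.2 ?_
      have := mul_le_mul_of_nonneg_left hτ hs0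
      linarith
    linarith
  · rw [h1z g hg, zero_mul, abs_zero, zero_mul, add_zero]
    have := Real.exp_pos (s * (ω g + η / 2))
    linarith

theorem near_crude {κ ι : Type} [DecidableEq ι] [Fintype ι] [Fintype κ] {r : Gp → ℝ}
    (R : Matrix (Fin 8) (Fin 8) ℂ) (G : WallData κ ι 8) (W : Fin 8 → ℂ → ℝ)
    (ω' : Gp → ℝ) (hr : ∀ g, 0 < r g)
    (hω' : ∀ g, ∀ s : ℝ, 1 ≤ s → ∀ t ∈ Metric.sphere (0 : ℂ) (r g),
      sharpN G W s (Sc g.cusp t) (R *ᵥ AR.tupC g t) ≤ Real.exp (s * ω' g))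
    (hr8 : r .z8 = r .z1) {τ : ℝ} (hτ0 : 0 ≤ τ) :
    ∃ s0 : ℕ, ∀ s, s0 ≤ s → ∀ x : ℝ, |x - Gc / 2| ≤ Real.exp (-(τ * s)) → ∀ g θ,
      sharpN G W s (Sc g.cusp (circleMap 0 (r g) θ)) (R *ᵥ fun j =>
        Phi (x : ℂ) g j (circleMap 0 (r g) θ)) ≤ Real.exp (s * (|ω' g| + |ω' .z8| + 1)) := by
  refine ⟨1, fun s hs x hx g θ => ?_⟩
  have hs1 : (1 : ℝ) ≤ s := by exact_mod_cast hs
  have hmem : ∀ g, circleMap 0 (r g) θ ∈ Metric.sphere (0 : ℂ) (r g) := fun g => by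
    rw [mem_sphere_zero_iff_norm, norm_circleMap_zero, abs_of_pos (hr g)]
  have h1 := hω' g s hs1 (circleMap 0 (r g) θ) (hmem g)
  have e1 : (fun j => Phi (x : ℂ) g j (circleMap 0 (r g) θ)) =
      AR.tupC g (circleMap 0 (r g) θ) - (if g = .z1 then ((x - Gc / 2 : ℝ) : ℂ) else 0) •
          AR.tupC .z8 (circleMap 0 (r g) θ) := by
    funext j
    rw [Phi_shift, Pi.sub_apply, Pi.smul_apply, smul_eq_mul]
  rw [e1]
  refine (sharp_sub_le G W _ _ R _ _ _).trans ?_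
  have a1 := abs_nonneg (ω' g)
  have a2 := abs_nonneg (ω' .z8)
  have h4 : Real.exp (s * (|ω' g| + |ω' .z8| + 1))
      = Real.exp s * Real.exp (s * (|ω' g| + |ω' .z8|)) := by
    rw [← Real.exp_add]; congr 1; ring
  have h5 := mul_le_mul_of_nonneg_right (two_le_exp hs1)
    (Real.exp_pos (s * (|ω' g| + |ω' .z8|))).le
  have h6 : Real.exp (s * ω' g) ≤ Real.exp (s * (|ω' g| + |ω' .z8|)) :=
    Real.exp_le_exp.2 (mul_le_mul_of_nonneg_left (by linarith [le_abs_self (ω' g)])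
      (by linarith))
  have h7 : Real.exp (s * ω' .z8) ≤ Real.exp (s * (|ω' g| + |ω' .z8|)) :=
    Real.exp_le_exp.2 (mul_le_mul_of_nonneg_left (by linarith [le_abs_self (ω' .z8)])
      (by linarith))
  rw [h4]
  by_cases hg : g = .z1
  · rw [if_pos hg, Complex.norm_real, Real.norm_eq_abs]
    subst hg
    have h9 := hω' .z8 s hs1 (circleMap 0 (r .z8) θ) (hmem .z8)
    rw [hr8] at h9
    have hx1 : |x - Gc / 2| ≤ 1 := by
      refine hx.trans ?_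
      rw [Real.exp_le_one_iff]
      have : 0 ≤ τ * s := mul_nonneg hτ0 (by linarith)
      linarith
    have h10 : |x - Gc / 2| * sharpN G W s (Sc Gp.z1.cusp (circleMap 0 (r .z1) θ))
        (R *ᵥ AR.tupC .z8 (circleMap 0 (r .z1) θ)) ≤ 1 * Real.exp (s * ω' .z8) :=
      mul_le_mul hx1 h9 (apply_nonneg _ _) zero_le_one
    linarith
  · rw [if_neg hg, norm_zero, zero_mul, add_zero]
    have := Real.exp_pos (s * (|ω' g| + |ω' .z8|))
    linarith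

theorem arU_of_det {κ ι : Type} [DecidableEq ι] [Fintype ι] [Fintype κ]
    (P : Par) (c0 : ℕ) (hcard : ∑ g : Gp, P.ht g = 8 * P.D0) (hD0 : 0 < P.D0)
    (r : Gp → ℝ) (hr : ∀ g, 0 < r g) (hr1 : ∀ g, r g < 1) (T : Tot P r)
    (R : Matrix (Fin 8) (Fin 8) ℂ) (hR : R.det ≠ 0) (G : WallData κ ι 8)
    {W : Fin 8 → ℂ → ℝ} (hW : ∀ b, Continuous (W b)) {E : ℝ} (hdet : DetB G W P.D0 E)
    (ω : Gp → ℝ)
    (hloc : ∀ g, ∃ B : ℝ, ∀ t : ℂ, ‖t‖ = r g →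
      Loc G W B (ω g) (Sc g.cusp t) (R *ᵥ ∑ g', ((T.al g g' : ℝ) : ℂ) • AR.tupC g' t))
    (h8 : ∀ g', g' ≠ .z8 → T.al .z8 g' = 0) (h1z : ∀ g, g ≠ .z1 → T.al g .z1 = 0)
    (hr8 : r .z8 = r .z1) {τ : ℝ} (hτ0 : 0 ≤ τ) (hτ : ω .z8 - ω .z1 ≤ τ) :
    ArU P c0 (E - Qm P r ω) τ := by
  classical
  -- crude bounds
  have hcr : ∀ g, ∃ ω' : ℝ, ∀ s : ℝ, 1 ≤ s → ∀ t ∈ Metric.sphere (0 : ℂ) (r g),
      sharpN G W s (Sc g.cusp t) (R *ᵥ AR.tupC g t) ≤ Real.exp (s * ω') := by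
    intro g
    refine exists_crude G hW (isCompact_sphere _ _) (continuousOn_Sc _ (hr g) (hr1 g)) ?_
    have h1 : ContinuousOn (fun t => AR.tupC g t) (Metric.sphere (0 : ℂ) (r g)) := by
      refine continuousOn_pi.2 fun j => ((H787.diff_tupC g j).continuousOn).mono ?_
      intro t ht
      rw [mem_ball_zero_iff, mem_sphere_zero_iff_norm.1 ht]
      exact hr1 g
    exact (Continuous.matrix_mulVec continuous_const continuous_id).comp_continuousOn h1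
  choose ω' hω' using hcr
  obtain ⟨R1, hR1⟩ := exists_R1 hr hr1
  refine arU_of_nodes P c0 hcard hD0 r hr hr1 (fun g j => Sm_tup0 (hr g).le (hr1 g) g j)
    (fun g j => Sm_tup1 (hr g).le (hr1 g) g j) T (fun s z v => sharpN G W s z (R *ᵥ v))
    (fun s z v => apply_nonneg _ _) E {z | ‖z‖ ≤ R1} (fun g θ => hR1 g θ) ?_ ω
    (fun g => |ω' g| + |ω' .z8| + 1) τ ?_ ?_
  · intro η hη
    have hη2 : 0 < η / 2 := by positivity
    obtain ⟨s1, h1⟩ := eventually_atTop.1 (hdet R1 (η / 2) hη2)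
    obtain ⟨s2, h2⟩ := exists_small_R P.D0 (Real.log ‖R.det‖) hη
    refine ⟨max s1 s2, fun s hs => ?_⟩
    have h3 := h1 s (le_trans (le_max_left _ _) hs)
    exact normBound_of_det (N := fun z v => sharpN G W s z v) (fun z v => apply_nonneg _ _)
      (fun a v ha => h3 a v ha) hR
      (arith_det (norm_pos_iff.2 hR) (h2 s (le_trans (le_max_right _ _) hs)))
  · exact near_tot T R G W ω hr hloc h8 h1z hr8 hτ
  · exact near_crude R G W ω' hr hω' hr8 hτ0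

end det

section top

open Matrix Set Filter Topology
open Vale.Agent.P030.H580 Vale.Agent.P030.H152
open Vale.Agent.P030.H866 (Tot Sc DetB Loc)
open Vale.Agent.P030.H905 (Pot WtP E0P nodes_boundP)
open Vale.Agent.P030.AR Vale.Agent.P030.H352
open scoped ComplexConjugate

theorem arU_R {N n : ℕ} (P : Par) (c0 : ℕ) (hcard : ∑ g : Gp, P.ht g = 8 * P.D0)
    (hD0 : 0 < P.D0) (r : Gp → ℝ) (hr : ∀ g, 0 < r g) (hr1 : ∀ g, r g < 1) (T : Tot P r)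
    (t : Geo N n) (F : Frs N) (d : DiscPk) (Q : GPatR F d)
    (hrad : ∀ g, Rad t.ρ g.cusp (r g)) {R : Matrix (Fin 8) (Fin 8) ℂ} (hR : R.det ≠ 0)
    (K : TotR R d T) (μ : Fin 8 → Pot) (γ : Fin 8 → ℝ)
    (hsym : ∀ b z, WtP (fun _ => P.D0) μ γ b (conj z) = WtP (fun _ => P.D0) μ γ b z)
    (n1 : ∀ z ∈ Dom t.ρ, z.im = 0 → ∀ b c, Q.pR (can (fun j => (t.w j).fn) t.TU z) (FPat.qz z) b c →
      WtP (fun _ => P.D0) μ γ c z ≤ WtP (fun _ => P.D0) μ γ b z)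
    (n2 : Edges (fun j => (t.w j).fn)
      (fun k k' z => ∀ b c, (Q.pI k k' b c ∨ Q.pI k' k b c) →
        WtP (fun _ => P.D0) μ γ c z ≤ WtP (fun _ => P.D0) μ γ b z)
      {z | 0 ≤ z.im ∧ z ∈ Dom t.ρ} t.TU)
    (n3 : ∀ c z, ‖z - cen c‖ = t.ρ c → 0 ≤ z.im →
      can (fun j => (t.w j).fn) t.TU z = Q.kc c ∧ ∀ b b', Q.pC c b b' →
        WtP (fun _ => P.D0) μ γ b' z ≤ WtP (fun _ => P.D0) μ γ b z)
    (ω : Gp → ℝ)
    (n4 : ∀ g, ∀ s : ℂ, ‖s‖ = r g → ∀ b, K.Lv g b →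
      WtP (fun _ => P.D0) μ γ b (Sc g.cusp s) ≤ ω g)
    (h8 : ∀ g', g' ≠ .z8 → T.al .z8 g' = 0) (h1z : ∀ g, g ≠ .z1 → T.al g .z1 = 0)
    (hr8 : r .z8 = r .z1) {τ : ℝ} (hτ0 : 0 ≤ τ) (hτ : ω .z8 - ω .z1 ≤ τ) :
    ArU P c0 (E0P (fun _ => P.D0) μ γ - Vale.Agent.P030.H866.Qm P r ω) τ := by
  set W := WtP (fun _ => P.D0) μ γ with hW
  have hC : (t.top F d).sharp.toWD.Cond W := by
    refine (t.top F d).cond (Q.pat t) hsym ?_ n2 ?_
    · intro z hz hi b c hp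
      exact n1 z hz hi b c hp
    · intro c z hz hi b b' hp
      obtain ⟨h1, h2⟩ := n3 c z hz hi
      exact h2 b b' (hp h1)
  have hWc : ∀ b, Continuous (W b) := fun b =>
    (continuous_const.mul (μ b).cont).add continuous_const
  refine arU_of_det P c0 hcard hD0 r hr hr1 T R hR (t.top F d).sharp.toWD hWc
    (detB_of_pot _ P.D0 μ γ hC) ω ?_ h8 h1z hr8 hτ0 hτ
  intro g
  obtain ⟨B, hB⟩ := K.ex g
  refine ⟨B, fun s hs i hi => ?_⟩
  have hic : i = .cu g.cusp := by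
    refine only_cu (t.top F d) (c := g.cusp) ?_ hi
    by_cases hc : g.cusp = 3
    · rw [if_pos hc, hc]
      have h := hrad g
      rw [hc] at h
      exact Sc_out (t.top F d) (hr g) h hs
    · rw [if_neg hc]
      exact Sc_in (t.top F d) hc (hr g) (hr1 g) (hrad g) hs
  subst hic
  obtain ⟨y, hy, hb⟩ := hB s hs
  exact ⟨y, hy, fun b => ⟨(hb b).1, (hb b).2.imp id fun h => n4 g s hs b h⟩⟩

end top

section join

open Set Filter
open scoped ComplexConjugate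
open Vale.Agent.P030.H208
open Vale.Agent.P030.AR (Geo Frs DiscPk TotR cen Dom)
open Vale.Agent.P030.H352 (GPatR)
open Vale.Agent.P030.H579 (parA parA_card)
open Vale.Agent.P030.H866 (Tot Sc)
open Vale.Agent.P030.H905 (Pot WtP E0P)
open Vale.Agent.P030.H462
open Vale.Agent.P030.H462.TA (Tab)
open Vale.Agent.P030.H250 (GeoN)

theorem arU_join {N n : ℕ} {c0 : ℕ} (D : Tab) (lk : Link D)
    (G : GeoN N n 8) (w : Fin n → H580.Wall) (hrho : rhoOk G.rn G.rd = true)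
    (hw : H250.SameSign (fun j => (w j).fn) G.wi)
    (cu : ∀ j z, (G.wi j).fn z = 0 → ∃ p ∈ G.pu j, p.P.On z)
    (ca : ∀ z, H250.imW.fn z = 0 → ∃ p ∈ G.pa, p.P.On z)
    (cc : ∀ c z, (H250.cwI c (G.rn c) (G.rd c)).fn z = 0 → ∃ p ∈ G.pc c, p.P.On z)
    (c1 : G.chkI = true) (c2 : G.chkA = true) (c3 : G.chkC = true)
    (gu : ∀ j, ∀ p ∈ G.pu j, GeoN.Good (fun b : Fin 8 => D.W b) p)
    (ga : ∀ p ∈ G.pa, GeoN.Good (fun b : Fin 8 => D.W b) p)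
    (gc : ∀ c, ∀ p ∈ G.pc c, GeoN.Good (fun b : Fin 8 => D.W b) p)
    (F : Frs N) (d : DiscPk) (Q : GPatR F d) (hkc : Q.kc = G.kc)
    (hI : ∀ k k' b c, Q.pI k k' b c → G.pI k k' b c = true)
    (hRr : ∀ k q b c, Q.pR k q b c → G.pR k q b c = true)
    (hC : ∀ c b b', Q.pC c b b' → G.pC c b b' = true)
    (R : H284.Rad) (hin : readIn G.rn G.rd R = true) (T : Tot parA R.r)
    {Rc : Matrix (Fin 8) (Fin 8) ℂ} (hRc : Rc.det ≠ 0) (K : TotR Rc d T)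
    (hLv : ∀ g (b : Fin 8), K.Lv g b → (b : ℕ) ∈ H284.lvA g)
    {kn kd : Fin 4 → ℕ} {wv : Gp → ℤ} (hrd : H284.ReadOk D R kn kd wv) {a : ℤ}
    (hval : H284.valCheck R wv lk.e a = true)
    (h8 : ∀ g', g' ≠ .z8 → T.al .z8 g' = 0) (h1z : ∀ g, g ≠ .z1 → T.al g .z1 = 0)
    {τ : ℝ} (hτ0 : 0 ≤ τ) (hτ : (wv .z8 : ℝ) / 2 ^ 40 - (wv .z1 : ℝ) / 2 ^ 40 ≤ τ) :
    ArU parA c0 (a / 10000) τ := by
  have hRok : R.ok = true := by
    simp only [H284.valCheck, Bool.and_eq_true] at hval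
    exact hval.1
  have hWf : WtP (fun _ => parA.D0) lk.μ lk.γ = fun (b : Fin 8) => D.W b := by
    funext b z
    exact lk.W_eq b z
  refine ArU.mono (H284.val_ge (R := R) (w := wv) (e := lk.e) hval
    (ω := fun g => (wv g : ℝ) / 2 ^ 40)
    (fun g => le_rfl) (E := E0P (fun _ => parA.D0) lk.μ lk.γ) lk.en) ?_
  have hD0 : 0 < parA.D0 := by simp [parA]
  refine arU_R parA c0 parA_card hD0 R.r (H284.Rad.r_pos hRok) (H284.Rad.r_lt hRok) T
    (geo G w hrho) F d Q (readIn.rad hrho hRok hin) hRc K lk.μ lk.γ ?_ ?_ ?_ ?_ _ ?_ h8 h1z rfl hτ0 hτ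
  · intro b z
    rw [hWf]
    exact lk.sym b z
  · rw [hWf]
    exact G.n1 hw (fun c => rfl) (rhoOk.rho_pos hrho)
      (fun c => by exact_mod_cast (rhoOk.pos hrho c).2) ca c2 hRr ga
  · rw [hWf]
    exact G.n2 hw (fun c => rfl) (fun c => by exact_mod_cast (rhoOk.pos hrho c).2) cu c1 hI gu
  · rw [hWf, hkc]
    exact G.n3 hw (fun c => rfl) (fun c => by exact_mod_cast (rhoOk.pos hrho c).2) cc c3 hC gc
  · intro g s hs b hb
    rw [hWf]
    exact H284.n4_of_check hrd g hs (hLv g b hb)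

end join

open Vale.Agent.P030.H250 (GeoN) in
/-- **the archimedean estimate for design A, near `G / 2`** -/
theorem arU_A (c0 : ℕ) : ArU H579.parA c0 4170 (71165 / 100) := by
  obtain ⟨V, hV⟩ := H60.ExV.existsV
  obtain ⟨X, hX, -⟩ := H265.exists_YD H225.refV hV
  have hg := GeoN.good_of_allLit v1_allLit V1.lit_ok
  have key := arU_join (c0 := c0) V1.tab.toTab v1_link H69.V1.GN H69.V1.w v1_rho H69.V1.hw
    H69.V1.cu H69.V1.ca
    H69.V1.cc H69.V1.c1 H69.V1.c2 H69.V1.c3 hg.1 hg.2.1 hg.2.2 (H336.frs1 hX) H352.discPk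
    (H336.gpatV hX) rfl (fun _ _ _ _ h => h) (fun _ _ _ _ h => h) (fun _ _ _ h => h)
    H284.V1.rad v1_in (H866.totRad H284.V1.rad) AR.Rc_det
    (H866.totRadR H284.V1.rad H284.V1.rad_ok) (fun g b h => lev_lv g b h) H284.V1.readOk
    H284.V1.val_ok
    (fun g' hg' => by
      change H866.alT .z8 g' = 0
      cases g' <;> first | exact absurd rfl hg' | simp [H866.alT])
    (fun g hg => by
      change H866.alT g .z1 = 0
      cases g <;> first | exact absurd rfl hg | simp [H866.alT])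
    (τ := 71165 / 100) (by norm_num) (by norm_num [H284.V1.wv])
  refine ArU.mono ?_ key
  norm_num

end Vale.Agent.N030
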