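import Vale.Agent.P030.T.Merge

/-!
# P030, irrationality measure: the prime two and the zero estimate, uniformly in the point `x`
-/

set_option linter.unusedVariables false

namespace Vale.Agent.N030

open Vale.Agent.P030 Vale.Agent.P030.T

/-! ### the zero estimate holds for every `s` and every `x` -/

section ze

open Polynomial Vale.Agent.P030.H782

theorem ze_all {Pr : Par} {c0 : ℕ} (hL : LamSt) (hT : TableSt Pr)
    (h1 : Pr.ht .vb ≤ Pr.ht .v2) (h2 : Pr.ht .x1 ≤ Pr.ht .x2) (hc : 7 ≤ c0) (x : ℚ) (s : ℕ)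
    (v : Fin (Pr.D0 * s) × Fin 8 → ℚ)
    (hv : ∀ c : Cl, c.2 < Pr.ht c.1 * s + c0 → ∑ r, v r * En (Pr.D0 * s) x r c = 0) :
    v = 0 := by
  by_contra hne
  have hP : pv v ≠ 0 := by
    intro h0
    apply hne
    funext ⟨i, j⟩
    rw [← coeff_pv v j i, h0]
    simp
  have hD : 0 < Pr.D0 * s := by
    by_contra h0
    apply hne
    funext ⟨i, j⟩
    have := i.2
    omega
  obtain ⟨Λ, hS, hmem, hli⟩ := hL _ hP
  obtain ⟨J, hJ, hs, hcard⟩ := hT x Λ hS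
  have hb : ∀ g, tt ^ (Pr.ht g * s + c0) ∣ val (Pr.D0 * s - 1) g.cusp (pv v) (tup x g) :=
    fun g => base fun k hk => hv (g, k) hk
  have hit := val_iter (N := fun g => Pr.ht g * s + c0)
    (by have := Nat.mul_le_mul_right s h1; simpa using this)
    (by have := Nat.mul_le_mul_right s h2; simpa using this) (natDegree_pv v) hb
  have hco := core (Q := fun i : Fin (Module.finrank ℚ Λ) => NTt^[(i : ℕ)] (pv v))
    (fun i n => hmem i n) hli (d := fun i => Pr.D0 * s - 1 + 2 * (i : ℕ))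
    (fun i j => (hit i).1 j) hJ (N := fun g => Pr.ht g * s + c0) (fun i g => (hit i).2 g)
  set r := Module.finrank ℚ Λ with hr
  have hr8 : r ≤ 8 := by
    have := Submodule.finrank_le Λ
    simpa using this
  have hr0 : 0 < r := by
    rw [hr, Module.finrank_pos_iff]
    rw [Submodule.nontrivial_iff_ne_bot]
    exact hS.ne
  have e1 : ∑ i : Fin r, (Pr.D0 * s - 1 + 2 * (i : ℕ)) = r * (Pr.D0 * s - 1) + r * (r - 1) := by
    rw [Finset.sum_add_distrib, Finset.sum_const, Finset.card_univ, Fintype.card_fin,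
      smul_eq_mul, ← Finset.mul_sum, Fin.sum_univ_eq_sum_range (fun i => i) r, mul_comm 2,
      Finset.sum_range_id_mul_two]
  have e2 : ∑ g ∈ J, (Pr.ht g * s + c0) = (∑ g ∈ J, Pr.ht g) * s + J.card * c0 := by
    rw [Finset.sum_add_distrib, Finset.sum_const, smul_eq_mul, Finset.sum_mul]
  rw [e1, e2] at hco
  have e3 : r * Pr.D0 * s ≤ (∑ g ∈ J, Pr.ht g) * s := Nat.mul_le_mul_right s hs
  have e4 : r * c0 ≤ J.card * c0 := Nat.mul_le_mul_right c0 hcard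
  have e5 : r * (Pr.D0 * s) + r * c0 ≤ r * (Pr.D0 * s - 1) + r * (r - 1) := by
    calc r * (Pr.D0 * s) + r * c0 = r * Pr.D0 * s + r * c0 := by ring
      _ ≤ _ := by omega
  rw [← mul_add, ← mul_add] at e5
  have e6 := Nat.le_of_mul_le_mul_left e5 hr0
  omega

end ze

/-- for every `s` and every rational `x` some admissible minor does not vanish -/
theorem nv_A (x : ℚ) (s : ℕ) :
    ∃ σ, Adm H579.parA 7 s σ ∧ (Mx (H579.parA.D0 * s) x σ).det ≠ 0 := by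
  obtain ⟨τ, hτ⟩ : ∃ τ : Cl → ℕ, Function.Injective τ := T.exists_injective_nat Cl
  obtain ⟨σ, h1, _, h3⟩ := exists_flagged (P := H579.parA) (c0 := 7) (s := s) x τ hτ
    (ze_all H200.lamSt H605.tableSt_A (by simp [H579.parA]) (by simp [H579.parA]) le_rfl x s)
  exact ⟨σ, h1, h3⟩

/-! ### the K-rows -/

section krows

open PowerSeries Finset Vale.Agent.P030.H869 Vale.Agent.P030.H914
open Vale.Agent.P030.H579 (parA hF ap wc kb nA nB nC n_le)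

/-- the entries of the two Hermite lines at `z1` and `w1`, for all integer points -/
def KZWU (c0 : ℕ) : Prop :=
  ∃ (C : ℝ) (m : ℕ), 0 ≤ C ∧ ∀ x : ℚ, x.den = 1 → ∀ s : ℕ, 1 ≤ s → ∀ n : ℕ, n + 1 = 27 * s →
    ∃ tF tT : Fin (n + 1) → Polynomial ℚ_[2], ∀ (i : Fin (n + 1)) (k : ℕ),
      (k < 32 * s + c0 →
        ‖rowVal ℚ_[2] (n + 1) (algebraMap ℚ ℚ_[2] x) .z1 k (krow 6 (hF s i) (tF i))‖
          ≤ C * ((s : ℝ) + 1) ^ m * kb s i k .z1 ∧
        ‖rowVal ℚ_[2] (n + 1) (algebraMap ℚ ℚ_[2] x) .z1 k (krow 7 (hF s i) (tT i))‖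
          ≤ C * ((s : ℝ) + 1) ^ m * kb s i k .z1) ∧
      (k < 32 * s + c0 →
        ‖rowVal ℚ_[2] (n + 1) (algebraMap ℚ ℚ_[2] x) .w1 k (krow 6 (hF s i) (tF i))‖
          ≤ C * ((s : ℝ) + 1) ^ m * kb s i k .w1 ∧
        ‖rowVal ℚ_[2] (n + 1) (algebraMap ℚ ℚ_[2] x) .w1 k (krow 7 (hF s i) (tT i))‖
          ≤ C * ((s : ℝ) + 1) ^ m * kb s i k .w1)

/-- the K-rows, for all integer points -/
def KRowU (c0 : ℕ) : Prop :=
  ∃ (C : ℝ) (m : ℕ), 0 ≤ C ∧ ∀ x : ℚ, x.den = 1 → ∀ s : ℕ, 1 ≤ s → ∀ n : ℕ, n + 1 = 27 * s →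
    ∃ tF tT : Fin (n + 1) → Polynomial ℚ_[2], ∀ (i : Fin (n + 1)) (g : Gp) (k : ℕ),
      k < parA.ht g * s + c0 →
      ‖rowVal ℚ_[2] (n + 1) (algebraMap ℚ ℚ_[2] x) g k (krow 6 (hF s i) (tF i))‖
          ≤ C * ((s : ℝ) + 1) ^ m * kb s i k g ∧
      ‖rowVal ℚ_[2] (n + 1) (algebraMap ℚ ℚ_[2] x) g k (krow 7 (hF s i) (tT i))‖
          ≤ C * ((s : ℝ) + 1) ^ m * kb s i k g

theorem norm_int_pt {x : ℚ} (hx : x.den = 1) : ‖algebraMap ℚ ℚ_[2] x‖ ≤ 1 := by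
  have h : x = (x.num : ℚ) := (Rat.coe_int_num_of_den_eq_one hx).symm
  rw [h]
  have e : algebraMap ℚ ℚ_[2] (x.num : ℚ) = ((x.num : ℤ) : ℚ_[2]) := by simp
  rw [e]
  exact Padic.norm_int_le_one _

theorem kzwU (c0 : ℕ) : KZWU c0 := by
  obtain ⟨Y, hY⟩ : ∃ Y : ℝ, Y = 1 + ‖x2‖ := ⟨_, rfl⟩
  have hY0 : 0 ≤ Y := by rw [hY]; positivity
  refine ⟨256 * 729 + Y, 2, by positivity, fun x hx s hs n hn => ?_⟩
  set y : ℚ_[2] := algebraMap ℚ ℚ_[2] x - x2 with hy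
  have hyY : ‖y‖ ≤ Y := by
    rw [hY, hy]
    exact (norm_sub_le _ _).trans (add_le_add (norm_int_pt hx) le_rfl)
  have hD : nA s + nB s + nC s ≤ n + 1 := by rw [hn]; exact n_le s
  have hs0 : (0 : ℝ) ≤ s := Nat.cast_nonneg s
  have h1s : (1 : ℝ) ≤ ((s : ℝ) + 1) ^ 2 := one_le_pow₀ (by linarith)
  have hsq := sq_le s n hn
  have hy0 := norm_nonneg y
  -- the two conversions
  have convz : ∀ (i k : ℕ) (v : ℝ) (Cg : ℝ), 0 ≤ Cg → Cg ≤ 256 →
      v ≤ max ((2 : ℝ) ^ (H721.Apot (nA s) (nB s) (nC s) i + H721.Wc (nA s) (nB s) (nC s) 3) * Cg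
          * ((((n + 1 : ℕ) : ℝ) + 1) ^ 2 * (1 / 8) ^ (n + 1)))
        ((2 : ℝ) ^ (H721.Apot (nA s) (nB s) (nC s) i + H721.Wc (nA s) (nB s) (nC s) 0) * ‖y‖
          * 4 ^ k) →
      v ≤ (256 * 729 + Y) * ((s : ℝ) + 1) ^ 2 * kb s i k .z1 := by
    intro i k v Cg hC0 hC1 hv
    have hkb : kb s i k .z1 = max ((2 : ℝ) ^ (ap s i + wc s 0 + 2 * k))
      ((2 : ℝ) ^ (ap s i + wc s 3 - 81 * s)) := rfl
    rw [hkb, rpow_z, rpow_81]
    set A := (2 : ℝ) ^ (H721.Apot (nA s) (nB s) (nC s) i + H721.Wc (nA s) (nB s) (nC s) 3) with hA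
    set B := (2 : ℝ) ^ (H721.Apot (nA s) (nB s) (nC s) i + H721.Wc (nA s) (nB s) (nC s) 0) with hB
    have hA0 : 0 < A := by positivity
    have hB0 : 0 < B := by positivity
    refine hv.trans (max_le ?_ ?_)
    · rw [hn] at hsq ⊢
      calc A * Cg * ((((27 * s : ℕ) : ℝ) + 1) ^ 2 * (1 / 8) ^ (27 * s))
          ≤ A * 256 * ((729 * ((s : ℝ) + 1) ^ 2) * (1 / 8) ^ (27 * s)) := by gcongr
        _ = (256 * 729) * ((s : ℝ) + 1) ^ 2 * (A * (1 / 8) ^ (27 * s)) := by ring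
        _ ≤ (256 * 729 + Y) * ((s : ℝ) + 1) ^ 2
            * max (B * 4 ^ k) (A * (1 / 8) ^ (27 * s)) := by
            refine mul_le_mul ?_ (le_max_right _ _) (by positivity) (by positivity)
            exact mul_le_mul_of_nonneg_right (by linarith) (by positivity)
    · calc B * ‖y‖ * 4 ^ k = ‖y‖ * 1 * (B * 4 ^ k) := by ring
        _ ≤ (256 * 729 + Y) * ((s : ℝ) + 1) ^ 2
            * max (B * 4 ^ k) (A * (1 / 8) ^ (27 * s)) := by
            refine mul_le_mul ?_ (le_max_left _ _) (by positivity) (by positivity)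
            exact mul_le_mul (by linarith) h1s zero_le_one (by positivity)
  have convw : ∀ (i k : ℕ) (v : ℝ) (Cg : ℝ), 0 ≤ Cg → Cg ≤ 256 →
      v ≤ (2 : ℝ) ^ (H721.Apot (nA s) (nB s) (nC s) i + H721.Wc (nA s) (nB s) (nC s) 3) * Cg
          * (((n + 1 : ℕ) : ℝ) + 1) ^ 2 * (1 / 4) ^ (n + 1) →
      v ≤ (256 * 729 + Y) * ((s : ℝ) + 1) ^ 2 * kb s i k .w1 := by
    intro i k v Cg hC0 hC1 hv
    have hkb : kb s i k .w1 = (2 : ℝ) ^ (ap s i + wc s 3 - 54 * s) := rfl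
    rw [hkb, rpow_54]
    set A := (2 : ℝ) ^ (H721.Apot (nA s) (nB s) (nC s) i + H721.Wc (nA s) (nB s) (nC s) 3) with hA
    have hA0 : 0 < A := by positivity
    refine hv.trans ?_
    rw [hn] at hsq ⊢
    calc A * Cg * (((27 * s : ℕ) : ℝ) + 1) ^ 2 * (1 / 4) ^ (27 * s)
        ≤ A * 256 * (729 * ((s : ℝ) + 1) ^ 2) * (1 / 4) ^ (27 * s) := by gcongr
      _ = (256 * 729) * ((s : ℝ) + 1) ^ 2 * (A * (1 / 4) ^ (27 * s)) := by ring
      _ ≤ (256 * 729 + Y) * ((s : ℝ) + 1) ^ 2 * (A * (1 / 4) ^ (27 * s)) := by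
          refine mul_le_mul_of_nonneg_right ?_ (by positivity)
          exact mul_le_mul_of_nonneg_right (by linarith) (by positivity)
  refine ⟨fun i => tS (n + 1) (nA s) (nB s) (nC s) i serE,
    fun i => tS (n + 1) (nA s) (nB s) (nC s) i serE7, fun i k => ⟨fun _ => ⟨?_, ?_⟩,
      fun _ => ⟨?_, ?_⟩⟩⟩
  · refine convz i k _ 4 (by norm_num) (by norm_num) ?_
    exact entry_z hD i.2 (algebraMap ℚ ℚ_[2] x) y k 6 (by decide) dc_E
      (gb_omX_mul (gb_serK k)) (Tup_z1_six _)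
  · refine convz i k _ 256 (by norm_num) le_rfl ?_
    exact entry_z hD i.2 (algebraMap ℚ ℚ_[2] x) y k 7 (by decide) dc_E7
      (gb_omX_mul (gb_th (gb_serK k))) (Tup_z1_seven _)
  · refine convw i k _ 4 (by norm_num) (by norm_num) ?_
    exact entry_w hD i.2 (algebraMap ℚ ℚ_[2] x) k 6 (by decide) dc_E (Tup_w1_six _)
  · refine convw i k _ 256 (by norm_num) le_rfl ?_
    exact entry_w hD i.2 (algebraMap ℚ ℚ_[2] x) k 7 (by decide) dc_E7 (Tup_w1_seven _)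

theorem kRowU (c0 : ℕ) : KRowU c0 := by
  obtain ⟨C, m, hC, H⟩ := kzwU c0
  refine ⟨C + 64 * (34 + c0), m + 1, by positivity, fun x hx s hs n hn => ?_⟩
  obtain ⟨tF, tT, H2⟩ := H x hx s hs n hn
  refine ⟨tF, tT, fun i g k hk => ?_⟩
  have hs' : (0 : ℝ) ≤ s := Nat.cast_nonneg s
  have h1 : (1 : ℝ) ≤ (s : ℝ) + 1 := by linarith
  have hkb := kb_nonneg s i k g
  have hp : (1 : ℝ) ≤ ((s : ℝ) + 1) ^ m := one_le_pow₀ h1
  have up1 : ∀ v : ℝ, v ≤ C * ((s : ℝ) + 1) ^ m * kb s i k g →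
      v ≤ (C + 64 * (34 + c0)) * ((s : ℝ) + 1) ^ (m + 1) * kb s i k g := by
    intro v hv
    refine hv.trans (mul_le_mul_of_nonneg_right ?_ hkb)
    refine mul_le_mul ?_ (pow_le_pow_right₀ h1 (Nat.le_succ m)) (by positivity) (by positivity)
    have : (0 : ℝ) ≤ 64 * (34 + (c0 : ℝ)) := by positivity
    linarith
  have up2 : ∀ v : ℝ, v ≤ 64 * (34 + c0) * ((s : ℝ) + 1) * kb s i k g →
      v ≤ (C + 64 * (34 + c0)) * ((s : ℝ) + 1) ^ (m + 1) * kb s i k g := by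
    intro v hv
    refine hv.trans (mul_le_mul_of_nonneg_right ?_ hkb)
    rw [pow_succ]
    calc 64 * (34 + (c0 : ℝ)) * ((s : ℝ) + 1) = 64 * (34 + (c0 : ℝ)) * (1 * ((s : ℝ) + 1)) := by
          ring
      _ ≤ (C + 64 * (34 + c0)) * (((s : ℝ) + 1) ^ m * ((s : ℝ) + 1)) := by
          refine mul_le_mul (by linarith) (mul_le_mul_of_nonneg_right hp (by linarith))
            (by positivity) (by positivity)
  by_cases hg1 : g = .z1
  · subst hg1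
    obtain ⟨a, b⟩ := (H2 i k).1 hk
    exact ⟨up1 _ a, up1 _ b⟩
  · by_cases hg2 : g = .w1
    · subst hg2
      obtain ⟨a, b⟩ := (H2 i k).2 hk
      exact ⟨up1 _ a, up1 _ b⟩
    · exact ⟨up2 _ (easy_bound c0 s n hs hn _ g hg1 hg2 i k hk 6 (Or.inl rfl) (tF i)),
        up2 _ (easy_bound c0 s n hs hn _ g hg1 hg2 i k hk 7 (Or.inr rfl) (tT i))⟩

end krows

/-! ### the power of two -/

/-- the 2-adic size of the determinants at all integer points -/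
def TwU (P : Par) (c0 : ℕ) (B : ℝ) : Prop :=
  ∀ ε : ℝ, 0 < ε → ∃ s0 : ℕ, ∀ s, s0 ≤ s → ∀ x : ℚ, x.den = 1 → ∀ σ, Adm P c0 s σ →
    ‖(((Mx (P.D0 * s) x σ).det : ℚ) : ℚ_[2])‖ ≤ (2 : ℝ) ^ ((B + ε) * (s : ℝ) ^ 2)

section tw

open Finset Vale.Agent.P030.H579 Vale.Agent.P030.H622

theorem twU_of_pl {P : Par} {c0 : ℕ} (hcard : ∑ g : Gp, P.ht g = 8 * P.D0) (u : ℚ)
    (a : Fin 8 → PL) (b : Gp → PL) (ha : ∀ j, (a j).ok 0 P.D0) (hb : ∀ g, (b g).ok 0 (P.ht g))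
    (h : ∀ η : ℝ, 0 < η → ∃ s0 : ℕ, ∀ s, s0 ≤ s → ∀ x : ℚ, x.den = 1 → ∀ σ, Adm P c0 s σ →
      ∃ τ, Adm P c0 s τ ∧
      ‖(((Mx (P.D0 * s) x σ).det : ℚ) : ℚ_[2])‖ ≤
        (2 : ℝ) ^ ((u + η) * (s : ℝ) ^ 2 + ∑ r, rowPot a (P.D0 * s) s r
          + ∑ r, colPot b s (τ r))) :
    TwU P c0 (tot P u a b) := by
  intro ε hε
  obtain ⟨s0, h0⟩ := h (ε / 2) (by linarith)
  obtain ⟨C1, hC1, h1⟩ := sum_rowPot a P.D0 ha
  obtain ⟨C2, hC2, h2⟩ := sum_colPot (c0 := c0) hcard b hb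
  obtain ⟨s1, hs1⟩ := exists_nat_ge ((C1 + C2) / (ε / 2))
  refine ⟨max (max s0 s1) 1, fun s hs x hx σ hσ => ?_⟩
  have hs0' : s0 ≤ s := le_trans (le_trans (le_max_left _ _) (le_max_left _ _)) hs
  have hs1' : s1 ≤ s := le_trans (le_trans (le_max_right _ _) (le_max_left _ _)) hs
  have hs2 : 1 ≤ s := le_trans (le_max_right _ _) hs
  obtain ⟨τ, hτ, hle⟩ := h0 s hs0' x hx σ hσ
  refine hle.trans ?_
  refine Real.rpow_le_rpow_of_exponent_le one_le_two ?_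
  have h3 := h1 s hs2
  have h4 := h2 s hs2 τ hτ
  have h5 : (C1 + C2) ≤ ε / 2 * s := by
    have h6 : (C1 + C2) / (ε / 2) ≤ s := hs1.trans (by exact_mod_cast hs1')
    rw [div_le_iff₀ (by linarith)] at h6
    linarith
  have hs3 : (0 : ℝ) ≤ s := Nat.cast_nonneg _
  have h7 : (C1 + C2) * s ≤ ε / 2 * s * s := mul_le_mul_of_nonneg_right h5 hs3
  have e1 : (tot P u a b : ℝ) = u + ((∑ j, (a j).area 0 P.D0 : ℚ) : ℝ)
      + ((∑ g, (b g).area 0 (P.ht g) : ℚ) : ℝ) := by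
    unfold tot; push_cast; ring
  rw [e1]
  nlinarith

theorem twU_of_entries {P : Par} {c0 : ℕ} (hw8 : P.ht .w8 = P.ht .wf7)
    (hwab : P.ht .wab = P.ht .wf7) (hwy : P.ht .wf7 ≤ P.ht .wy)
    (hcard : ∑ g : Gp, P.ht g = 8 * P.D0) (u : ℚ)
    (a : Fin 8 → PL) (b : Gp → PL) (ha : ∀ j, (a j).ok 0 P.D0) (hb : ∀ g, (b g).ok 0 (P.ht g))
    (h : ∀ η : ℝ, 0 < η → ∃ s0 : ℕ, ∀ s, s0 ≤ s → ∀ x : ℚ, x.den = 1 →
      ∃ U : Matrix (Fin (P.D0 * s) × Fin 8) (Fin (P.D0 * s) × Fin 8) ℚ_[2],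
        (2 : ℝ) ^ (-((u + η) * (s : ℝ) ^ 2)) ≤ ‖U.det‖ ∧
        ∀ c : Cl, c.2 < P.ht c.1 * s + c0 → ∀ r,
          ‖∑ r', U r r' * ((Fe (P.D0 * s) x (P.ht .wf7 * s + c0) r' c : ℚ) : ℚ_[2])‖
            ≤ (2 : ℝ) ^ (rowPot a (P.D0 * s) s r + colPot b s c + η * s)) :
    TwU P c0 (tot P u a b) := by
  refine twU_of_pl hcard u a b ha hb fun η hη => ?_
  have hz : (0 : ℝ) < 8 * (P.D0 : ℝ) + 1 := by
    have := Nat.cast_nonneg (α := ℝ) P.D0
    linarith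
  obtain ⟨ζ, hζ⟩ : ∃ ζ : ℝ, ζ = η / (8 * (P.D0 : ℝ) + 1) := ⟨_, rfl⟩
  have hζ0 : 0 < ζ := by rw [hζ]; exact div_pos hη hz
  obtain ⟨s0, h0⟩ := h ζ hζ0
  refine ⟨s0, fun s hs x hx σ hσ => ?_⟩
  obtain ⟨U, hU, hE⟩ := h0 s hs x hx
  obtain ⟨τ, hτ, key⟩ := norm_det_le_of_family hw8 hwab hwy hσ U hU
    (fun r => rowPot a (P.D0 * s) s r + ζ * s) (colPot b s) (by
      intro c hc r
      have h1 := hE c hc r
      have e0 : rowPot a (P.D0 * s) s r + ζ * s + colPot b s c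
          = rowPot a (P.D0 * s) s r + colPot b s c + ζ * s := by ring
      rw [e0]
      exact h1)
  refine ⟨τ, hτ, key.trans (Real.rpow_le_rpow_of_exponent_le one_le_two (le_of_eq ?_))⟩
  have e1 : ζ * (8 * (P.D0 : ℝ) + 1) = η := by rw [hζ, div_mul_cancel₀ _ hz.ne']
  have e3 : ∑ r : Fin (P.D0 * s) × Fin 8, (rowPot a (P.D0 * s) s r + ζ * s)
      = ∑ r, rowPot a (P.D0 * s) s r + (P.D0 * s * 8 : ℝ) * (ζ * s) := by
    rw [Finset.sum_add_distrib, Finset.sum_const, Finset.card_univ, Fintype.card_prod,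
      Fintype.card_fin, Fintype.card_fin, nsmul_eq_mul]
    push_cast
    ring
  rw [e3, ← e1]
  ring

open Vale.Agent.P030.H869 in
open Vale.Agent.P030.H486 (bnd tab cst Kd tab6 tabd t6 td) in
/-- **the prime two for design A, uniformly** -/
theorem twU_A (c0 : ℕ) : TwU parA c0 (13945 / 4) := by
  have key := twU_of_entries (P := parA) (c0 := c0) rfl rfl (by decide) parA_card (-273)
    rowF colF rowF_ok colF_ok (fun η hη => ?_)
  · rw [totF] at key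
    norm_num at key ⊢
    exact key
  obtain ⟨C, m, hC, hK'⟩ := kRowU c0
  obtain ⟨s1, h1⟩ := poly_le (8 * C) m hη
  obtain ⟨s2, h2⟩ := poly_le (4 * 27 ^ 2 * 33 ^ 3) 5 hη
  refine ⟨s1 + s2 + c0 + 1, fun s hs x hx => ?_⟩
  have hs1 : 1 ≤ s := by omega
  have hc0 : c0 ≤ s := by omega
  have hn : (27 * s - 1) + 1 = 27 * s := by omega
  obtain ⟨n, hn'⟩ : ∃ n, n = 27 * s - 1 := ⟨_, rfl⟩
  rw [← hn'] at hn
  have hD : parA.D0 * s = n + 1 := hn.symm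
  obtain ⟨tF, tT, hE⟩ := hK' x hx s hs1 n hn
  obtain ⟨U, hdet, hU⟩ := exists_UF hD (fun i : Fin (n + 1) => hF s i) tF tT x
    (parA.ht .wf7 * s + c0)
  have hs0 : (0 : ℝ) < s := by exact_mod_cast hs1
  have hP1 : 8 * C * ((s : ℝ) + 1) ^ m ≤ (2 : ℝ) ^ (η * s) := h1 s (by omega)
  have hP2 : 4 * 27 ^ 2 * 33 ^ 3 * ((s : ℝ) + 1) ^ 5 ≤ (2 : ℝ) ^ (η * s) := h2 s (by omega)
  refine ⟨U, ?_, fun c hc r => ?_⟩
  · rw [hdet]
    have e1 : (Matrix.of fun i a : Fin (n + 1) => (hF s i).coeff a).det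
        = (1 / 2 : ℚ_[2]) ^ (nA s * nB s + nB s * nC s) :=
      H721.det_hm_special (nA s) (nB s) (nC s) (n + 1) (by rw [hn]; exact n_le s) two_ne_zero
    rw [e1, ← norm_pow, ← pow_mul, norm_half_pow]
    refine Real.rpow_le_rpow_of_exponent_le one_le_two ?_
    have hB := nB_cases s
    have hBr : 21 * (s : ℝ) ≤ 2 * nB s := by
      exact_mod_cast (show 21 * s ≤ 2 * nB s by omega)
    unfold nA nC
    push_cast
    nlinarith [mul_le_mul_of_nonneg_left hBr hs0.le, sq_nonneg (s : ℝ)]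
  · obtain ⟨g, k⟩ := c
    obtain ⟨i, ty⟩ := r
    have hk : k < parA.ht g * s + c0 := hc
    have hk33 : k + 1 ≤ 33 * s := by
      have := Nat.mul_le_mul_right s (ht_le g)
      omega
    have hvx : g = .vb ∨ g = .x1 → k ≤ n := by
      rintro (rfl | rfl)
      · have : k < 4 * s + c0 := hk
        omega
      · have : k < 4 * s + c0 := hk
        omega
    obtain ⟨u1, u2, u3⟩ := hU i ty g k
    have hin : (i : ℕ) ≤ n := by
      have := i.2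
      omega
    have hk6 : kb s i k g ≤ (2 : ℝ) ^ ((s : ℝ) * rowK.ev (((i : ℕ) : ℝ) / s)
        + colPot colF s (g, k) + 3) := kb_le c0 s i k hs1 hc0 g hk
    have hfin : C * ((s : ℝ) + 1) ^ m * kb s i k g
        ≤ (2 : ℝ) ^ ((s : ℝ) * rowK.ev (((i : ℕ) : ℝ) / s) + colPot colF s (g, k) + η * s) := by
      have hCs : 0 ≤ C * ((s : ℝ) + 1) ^ m := by positivity
      refine (mul_le_mul_of_nonneg_left hk6 hCs).trans ?_
      rw [Real.rpow_add two_pos _ 3, Real.rpow_add two_pos _ (η * s)]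
      have e8 : (2 : ℝ) ^ (3 : ℝ) = 8 := by norm_num
      rw [e8]
      have hpos : (0 : ℝ) < (2 : ℝ) ^ ((s : ℝ) * rowK.ev (((i : ℕ) : ℝ) / s)
        + colPot colF s (g, k)) := Real.rpow_pos_of_pos two_pos _
      have := mul_le_mul_of_nonneg_left hP1 hpos.le
      linarith
    by_cases h6 : ty = 6
    · subst h6
      exact (u2 rfl).trans (((hE (Fin.cast hD i) g k hk).1).trans hfin)
    · by_cases h7 : ty = 7
      · subst h7
        exact (u3 rfl).trans (((hE (Fin.cast hD i) g k hk).2).trans hfin)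
      · have hty : (ty : ℕ) < 6 := by
          have := ty.2
          have a6 : (ty : ℕ) ≠ 6 := fun h => h6 (Fin.ext h)
          have a7 : (ty : ℕ) ≠ 7 := fun h => h7 (Fin.ext h)
          omega
        refine (u1 hty hvx).trans (poly_pot hn hs1 hin _ (fun hne => kind_ineq _ s i k hs1 g ty hty
          hne) ?_)
        refine le_trans ?_ hP2
        unfold cst
        have a1 : (n : ℝ) + 1 = 27 * s := by exact_mod_cast hn
        have a2 : (k : ℝ) + 1 ≤ 33 * s := by exact_mod_cast hk33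
        have a3 : ((k : ℝ) + 1) ^ 3 ≤ (33 * s) ^ 3 := pow_le_pow_left₀ (by positivity) a2 3
        have a4 : (s : ℝ) ^ 5 ≤ ((s : ℝ) + 1) ^ 5 := pow_le_pow_left₀ hs0.le (by linarith) 5
        rw [a1]
        have a5 : 2 * (2 * (27 * (s : ℝ)) ^ 2 * ((k : ℝ) + 1) ^ 3)
            ≤ 2 * (2 * (27 * (s : ℝ)) ^ 2 * (33 * s) ^ 3) := by
          have : (0 : ℝ) ≤ 2 * (27 * (s : ℝ)) ^ 2 := by positivity
          nlinarith [mul_le_mul_of_nonneg_left a3 this]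
        refine a5.trans ?_
        have a6 : 2 * (2 * (27 * (s : ℝ)) ^ 2 * (33 * s) ^ 3) = 4 * 27 ^ 2 * 33 ^ 3 * (s : ℝ) ^ 5 := by
          ring
        rw [a6]
        exact mul_le_mul_of_nonneg_left a4 (by norm_num)

end tw

end Vale.Agent.N030
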