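import Vale.Agent.N030.Od
import Vale.Agent.N030.Tw
import Vale.Agent.N030.Ar

/-!
# P030, irrationality measure: interpolation in `x` and the end

The determinant is a polynomial in `x` of degree at most the number of columns of the group `z1`.
Its denominators at the integer points bound its denominator at a rational point `a / b`.
-/

open Polynomial Finset

namespace Vale.Agent.N030

open Vale.Agent.P030 Vale.Agent.P030.T

/-! ### the determinant as a polynomial in `x` -/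

/-- the determinant as a polynomial -/
noncomputable def Pm (D : ℕ) (σ : Fin D × Fin 8 → Cl) : ℚ[X] :=
  (Matrix.of fun r c : Fin D × Fin 8 => C (ent0 D (σ c).1 (σ c).2 r.1 r.2)
    + X * C (ent1 D (σ c).1 (σ c).2 r.1 r.2)).det

theorem eval_Pm (D : ℕ) (σ : Fin D × Fin 8 → Cl) (x : ℚ) :
    (Pm D σ).eval x = (Mx D x σ).det := by
  unfold Pm
  rw [← coe_evalRingHom, RingHom.map_det]
  refine congrArg Matrix.det ?_
  ext r c
  rw [RingHom.mapMatrix_apply, Matrix.map_apply, Matrix.of_apply, coe_evalRingHom, eval_add,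
    eval_mul, eval_C, eval_C, eval_X]
  rfl

theorem ent1_ne {D : ℕ} {g : Gp} (hg : g ≠ .z1) (k i : ℕ) (j : Fin 8) : ent1 D g k i j = 0 := by
  unfold ent1
  rw [tup1_ne hg, mul_zero, map_zero]

theorem natDegree_Pm (D : ℕ) (σ : Fin D × Fin 8 → Cl) :
    (Pm D σ).natDegree ≤ (univ.filter fun c => (σ c).1 = Gp.z1).card := by
  classical
  unfold Pm
  rw [Matrix.det_apply]
  refine natDegree_sum_le_of_forall_le _ _ fun τ _ => ?_
  have h1 : ∀ f : ℚ[X], (Equiv.Perm.sign τ • f).natDegree = f.natDegree := by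
    intro f
    rcases Int.units_eq_one_or (Equiv.Perm.sign τ) with h | h <;> rw [h] <;> simp [Units.smul_def]
  rw [h1]
  refine (natDegree_prod_le _ _).trans ?_
  rw [Finset.card_filter]
  refine Finset.sum_le_sum fun c _ => ?_
  rw [Matrix.of_apply]
  split_ifs with h
  · refine (natDegree_add_le _ _).trans (max_le (by rw [natDegree_C]; exact zero_le_one) ?_)
    rw [mul_comm]
    exact (natDegree_C_mul_le _ _).trans natDegree_X_le
  · rw [ent1_ne h, map_zero, mul_zero, add_zero, natDegree_C]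

theorem card_z1 {P : Par} {c0 s : ℕ} {σ : Fin (P.D0 * s) × Fin 8 → Cl} (hσ : Adm P c0 s σ) :
    (univ.filter fun c => (σ c).1 = Gp.z1).card ≤ P.ht .z1 * s + c0 := by
  classical
  rw [← Finset.card_range (P.ht .z1 * s + c0)]
  refine Finset.card_le_card_of_injOn (fun c => (σ c).2) (fun c hc => ?_) fun a ha b hb h => ?_
  · have h1 : (σ c).1 = Gp.z1 := (Finset.mem_filter.1 hc).2
    have h2 := hσ.2 c
    rw [h1] at h2
    exact Finset.mem_coe.2 (Finset.mem_range.2 h2)
  · have h1 : (σ a).1 = Gp.z1 := (Finset.mem_filter.1 ha).2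
    have h2 : (σ b).1 = Gp.z1 := (Finset.mem_filter.1 hb).2
    exact hσ.1 (Prod.ext (h1.trans h2.symm) h)

/-! ### interpolation at the integers -/

theorem prod_erase_sub {i n : ℕ} (h : i ≤ n) :
    ∏ j ∈ (range (n + 1)).erase i, ((i : ℚ) - j)
      = (-1) ^ (n - i) * (i.factorial * (n - i).factorial) := by
  induction n, h using Nat.le_induction with
  | base =>
    rw [Finset.range_add_one, Finset.erase_insert Finset.notMem_range_self,
      Finset.prod_range_natCast_sub, ← Nat.descFactorial_eq_prod_range, Nat.descFactorial_self]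
    simp
  | succ n h ih =>
    rw [Finset.range_add_one (n := n + 1), Finset.erase_insert_of_ne (by omega),
      Finset.prod_insert (by simp), ih, show n + 1 - i = (n - i) + 1 by omega, pow_succ,
      Nat.factorial_succ]
    push_cast [Nat.cast_sub h]
    ring

theorem interp_int {f : ℚ[X]} {n : ℕ} (hf : f.natDegree ≤ n) {m : ℚ}
    (h : ∀ y : ℕ, ∃ z : ℤ, m * f.eval (y : ℚ) = z) (a : ℤ) {b : ℕ} (hb : b ≠ 0) :
    ∃ z : ℤ, (n.factorial : ℚ) * (b : ℚ) ^ n * (m * f.eval ((a : ℚ) / b)) = z := by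
  classical
  choose z hz using h
  have hb' : (b : ℚ) ≠ 0 := by exact_mod_cast hb
  have hinj : Set.InjOn (fun i : ℕ => (i : ℚ)) (range (n + 1) : Finset ℕ) :=
    fun i _ j _ hij => Nat.cast_injective hij
  have hdeg : f.degree < (range (n + 1)).card := by
    rw [Finset.card_range]
    exact lt_of_le_of_lt (degree_le_of_natDegree_le hf) (by exact_mod_cast Nat.lt_succ_self n)
  have e := Lagrange.eq_interpolate hinj hdeg
  refine ⟨∑ i ∈ range (n + 1), z i * ((-1) ^ (n - i) * (n.choose i : ℤ))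
    * ∏ j ∈ (range (n + 1)).erase i, (a - j * b), ?_⟩
  have e2 : f.eval ((a : ℚ) / b) = ∑ i ∈ range (n + 1), f.eval (i : ℚ) *
      ∏ j ∈ (range (n + 1)).erase i, (((i : ℚ) - j)⁻¹ * ((a : ℚ) / b - j)) := by
    conv_lhs => rw [e]
    rw [Lagrange.interpolate_apply, eval_finsetSum]
    refine Finset.sum_congr rfl fun i _ => ?_
    rw [eval_mul, eval_C, Lagrange.basis, eval_prod]
    congr 1
    refine Finset.prod_congr rfl fun j _ => ?_
    simp only [Lagrange.basisDivisor, eval_mul, eval_C, eval_sub, eval_X]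
  rw [e2, Finset.mul_sum, Finset.mul_sum]
  push_cast
  refine Finset.sum_congr rfl fun i hi => ?_
  have hin : i ≤ n := Nat.lt_succ_iff.1 (Finset.mem_range.1 hi)
  have hcard : ((range (n + 1)).erase i).card = n := by
    rw [Finset.card_erase_of_mem hi, Finset.card_range, Nat.add_sub_cancel]
  have e3 : (b : ℚ) ^ n * ∏ j ∈ (range (n + 1)).erase i, ((a : ℚ) / b - j)
      = ∏ j ∈ (range (n + 1)).erase i, ((a : ℚ) - j * b) := by
    have e0 : (b : ℚ) ^ n = ∏ _j ∈ (range (n + 1)).erase i, (b : ℚ) := by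
      rw [Finset.prod_const, hcard]
    rw [e0, ← Finset.prod_mul_distrib]
    refine Finset.prod_congr rfl fun j _ => ?_
    field_simp
  have e4 : (n.factorial : ℚ) = n.choose i * (i.factorial * (n - i).factorial) := by
    rw [← mul_assoc]
    exact_mod_cast (Nat.choose_mul_factorial_mul_factorial hin).symm
  have hf1 : (i.factorial : ℚ) ≠ 0 := by exact_mod_cast i.factorial_ne_zero
  have hf2 : ((n - i).factorial : ℚ) ≠ 0 := by exact_mod_cast (n - i).factorial_ne_zero
  have e5 : ((-1 : ℚ) ^ (n - i))⁻¹ = (-1) ^ (n - i) := by rw [← inv_pow, inv_neg, inv_one]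
  rw [Finset.prod_mul_distrib, Finset.prod_inv_distrib, prod_erase_sub hin, ← hz i, ← e3, e4,
    mul_inv, e5]
  field_simp

/-! ### denominators -/

theorem exists_int_of_val {e : ℚ} (hev : ∀ q : ℕ, q.Prime → 0 ≤ padicValRat q e) :
    ∃ z : ℤ, e = z := by
  have hden : e.den = 1 := by
    by_contra hne
    obtain ⟨q, hq, hqd⟩ := Nat.exists_prime_and_dvd hne
    have := Fact.mk hq
    have h1 := hev q hq
    have h2 : padicValInt q e.num = 0 := by
      apply padicValInt.eq_zero_of_not_dvd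
      intro hn
      have hc := e.reduced
      have : q ∣ Nat.gcd e.num.natAbs e.den := Nat.dvd_gcd (Int.natCast_dvd.1 hn) hqd
      rw [hc] at this
      exact hq.one_lt.ne' (Nat.dvd_one.1 this)
    have h3 : 1 ≤ padicValNat q e.den := one_le_padicValNat_of_dvd e.den_nz hqd
    unfold padicValRat at h1
    rw [h2] at h1
    omega
  exact ⟨e.num, (Rat.coe_int_num_of_den_eq_one hden).symm⟩

theorem val_prod (c : ℕ → ℤ) {q : ℕ} (hq : q.Prime) (T : Finset ℕ) :
    (∀ p ∈ T, p.Prime) →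
      padicValRat q (∏ p ∈ T, (p : ℚ) ^ c p) = if q ∈ T then c q else 0 := by
  classical
  have := Fact.mk hq
  induction T using Finset.induction_on with
  | empty => intro _; simp
  | insert a T ha ih =>
    intro hT
    have hTp : ∀ p ∈ T, p.Prime := fun p hp => hT p (Finset.mem_insert_of_mem hp)
    have hap := hT a (Finset.mem_insert_self _ _)
    rw [Finset.prod_insert ha, padicValRat.mul
      (zpow_ne_zero _ (by exact_mod_cast hap.ne_zero))
      (Finset.prod_ne_zero_iff.2 fun p hp =>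
        zpow_ne_zero _ (by exact_mod_cast (hTp p hp).ne_zero)), ih hTp, padicValRat.zpow]
    by_cases hqa : q = a
    · subst hqa
      simp [ha, padicValRat.self hq.one_lt]
    · have h1 : padicValRat q (a : ℚ) = 0 := by
        rw [padicValRat.of_nat]
        have : padicValNat q a = 0 := by
          apply padicValNat.eq_zero_of_not_dvd
          intro hdvd
          exact hqa ((Nat.prime_dvd_prime_iff_eq hq hap).1 hdvd)
        rw [this]; rfl
      rw [h1]
      simp [Finset.mem_insert, hqa]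

/-- one common denominator for all integer points -/
theorem exists_den {P : Par} {c0 : ℕ} {B B2 : ℝ} (hOD : OdU P c0 B) (hTW : TwU P c0 B2)
    {ε : ℝ} (hε : 0 < ε) : ∃ s0 : ℕ, ∀ s, s0 ≤ s → ∃ m : ℚ, 0 < m ∧
      Real.log m ≤ (B + ε + (B2 + ε) * Real.log 2) * (s : ℝ) ^ 2 ∧
      ∀ σ, Adm P c0 s σ → ∀ y : ℕ, ∃ z : ℤ, m * (Mx (P.D0 * s) (y : ℚ) σ).det = z := by
  classical
  obtain ⟨s1, h1⟩ := hOD ε hε
  obtain ⟨s2, h2⟩ := hTW ε hε
  refine ⟨max s1 s2, fun s hs => ?_⟩
  obtain ⟨S, c, hSp, hSs, hSv⟩ := h1 s ((le_max_left _ _).trans hs)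
  have h3 := h2 s ((le_max_right _ _).trans hs)
  obtain ⟨c2, hc2⟩ : ∃ c2 : ℤ, c2 = ⌊(B2 + ε) * (s : ℝ) ^ 2⌋ := ⟨_, rfl⟩
  have h2S : 2 ∉ S := fun h => (hSp 2 h).2 rfl
  set c' : ℕ → ℤ := fun p => if p = 2 then c2 else c p with hc'
  have hT : ∀ p ∈ insert 2 S, p.Prime := by
    intro p hp
    rcases Finset.mem_insert.1 hp with h | h
    · rw [h]; exact Nat.prime_two
    · exact (hSp p h).1
  have hm0 : 0 < ∏ p ∈ insert 2 S, (p : ℚ) ^ c' p :=
    Finset.prod_pos fun p hp => zpow_pos (by exact_mod_cast (hT p hp).pos) _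
  refine ⟨∏ p ∈ insert 2 S, (p : ℚ) ^ c' p, hm0, ?_, fun σ hσ y => ?_⟩
  · push_cast
    rw [Real.log_prod (fun p hp => by
      have := (hT p hp).ne_zero
      exact zpow_ne_zero _ (by exact_mod_cast this)), Finset.sum_insert h2S]
    have e1 : ∑ p ∈ S, Real.log ((p : ℝ) ^ c' p) = ∑ p ∈ S, (c p : ℝ) * Real.log p := by
      refine Finset.sum_congr rfl fun p hp => ?_
      rw [Real.log_zpow]
      simp only [hc', if_neg (hSp p hp).2]
    have e2 : Real.log (((2 : ℕ) : ℝ) ^ c' 2) = c2 * Real.log 2 := by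
      rw [Real.log_zpow]
      simp only [hc', if_true]
      norm_num
    rw [e1, e2]
    have h4 : (c2 : ℝ) ≤ (B2 + ε) * (s : ℝ) ^ 2 := by rw [hc2]; exact Int.floor_le _
    have h5 := mul_le_mul_of_nonneg_right h4 (Real.log_pos one_lt_two).le
    nlinarith
  · set d := (Mx (P.D0 * s) (y : ℚ) σ).det with hd
    by_cases hd0 : d = 0
    · exact ⟨0, by rw [hd0]; simp⟩
    refine exists_int_of_val fun q hq => ?_
    have := Fact.mk hq
    rw [padicValRat.mul hm0.ne' hd0, val_prod c' hq _ hT]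
    by_cases hq2 : q = 2
    · subst hq2
      rw [if_pos (Finset.mem_insert_self _ _)]
      have h4 := h3 (y : ℚ) (Rat.den_natCast y) σ hσ
      rw [← hd] at h4
      have h5 : ‖((d : ℚ) : ℚ_[2])‖ = (2 : ℝ) ^ (-(padicValRat 2 d : ℝ)) := by
        rw [Padic.eq_padicNorm, padicNorm.eq_zpow_of_nonzero hd0]
        push_cast
        rw [← Real.rpow_intCast]
        push_cast
        rfl
      rw [h5] at h4
      have h6 : -(padicValRat 2 d : ℝ) ≤ (B2 + ε) * (s : ℝ) ^ 2 :=
        (Real.rpow_le_rpow_left_iff one_lt_two).1 h4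
      have h7 : -padicValRat 2 d ≤ c2 := by
        rw [hc2, Int.le_floor]
        push_cast
        exact h6
      simp only [hc', if_true]
      linarith
    · have h4 := hSv (y : ℚ) (Rat.den_natCast y) σ hσ hd0 q hq hq2
      rw [← hd] at h4
      simp only [Finset.mem_insert, hq2, false_or, hc', if_false]
      split_ifs with h
      · rw [if_pos h] at h4; linarith
      · rw [if_neg h] at h4; linarith

/-! ### the end -/

theorem log_factorial_le {ε : ℝ} (hε : 0 < ε) : ∃ s0 : ℕ, ∀ s : ℕ, s0 ≤ s →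
    Real.log ((32 * s + 7).factorial : ℝ) ≤ ε * (s : ℝ) ^ 2 := by
  have h := (Real.isLittleO_log_id_atTop.def (show (0 : ℝ) < ε / (39 * 39) by positivity))
  obtain ⟨y0, hy0⟩ := Filter.eventually_atTop.1 h
  obtain ⟨s1, hs1⟩ := exists_nat_ge y0
  refine ⟨max s1 1, fun s hs => ?_⟩
  have h1 : 1 ≤ s := (le_max_right _ _).trans hs
  have h1' : (1 : ℝ) ≤ s := by exact_mod_cast h1
  have h2 : (s1 : ℝ) ≤ s := by exact_mod_cast (le_max_left _ _).trans hs
  obtain ⟨n, hn⟩ : ∃ n, n = 32 * s + 7 := ⟨_, rfl⟩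
  rw [← hn]
  have hnr : (n : ℝ) = 32 * s + 7 := by rw [hn]; push_cast; ring
  have hn0 : (1 : ℝ) ≤ n := by linarith
  have h3 : (n.factorial : ℝ) ≤ (n : ℝ) ^ n := by exact_mod_cast Nat.factorial_le_pow n
  have h4 : Real.log (n.factorial : ℝ) ≤ n * Real.log n := by
    rw [← Real.log_pow]
    exact Real.log_le_log (by exact_mod_cast n.factorial_pos) h3
  have h5 := hy0 n (by linarith)
  rw [Real.norm_of_nonneg (Real.log_nonneg hn0), id, Real.norm_of_nonneg (by linarith)] at h5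
  have h6 : (n : ℝ) ≤ 39 * s := by linarith
  have h7 : (n : ℝ) * Real.log n ≤ n * (ε / (39 * 39) * n) :=
    mul_le_mul_of_nonneg_left h5 (by linarith)
  have h8 : (n : ℝ) * n ≤ (39 * s) * (39 * s) := mul_le_mul h6 h6 (by linarith) (by linarith)
  have h9 : ε / (39 * 39) * ((n : ℝ) * n) ≤ ε / (39 * 39) * ((39 * s) * (39 * s)) :=
    mul_le_mul_of_nonneg_left h8 (by positivity)
  have e : ε / (39 * 39) * ((39 * (s : ℝ)) * (39 * s)) = ε * (s : ℝ) ^ 2 := by
    field_simp
  linarith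

/-- the key step: a rational point `a / b` is not too close to `G / 2` -/
theorem key_step : ∃ s0 : ℕ, ∀ s : ℕ, s0 ≤ s → ∀ (a : ℤ) (b : ℕ), b ≠ 0 →
    (2348 / 1000 : ℝ) * Real.log b ≤ s →
    Real.exp (-(71165 / 100 * s)) < |(a : ℝ) / b - Gc / 2| := by
  have hε : (0 : ℝ) < 1 / 2000 := by norm_num
  obtain ⟨s1, h1⟩ := exists_den (odU_A 7) (twU_A 7) hε
  obtain ⟨s2, h2⟩ := arU_A 7 _ hε
  obtain ⟨s3, h3⟩ := log_factorial_le hε
  refine ⟨s1 + s2 + s3 + 2000, fun s hs a b hb hL => ?_⟩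
  by_contra hcon
  rw [not_lt] at hcon
  obtain ⟨m, hm0, hm, hint⟩ := h1 s (by omega)
  set x : ℚ := (a : ℚ) / b with hx
  have hxr : ((x : ℚ) : ℝ) = (a : ℝ) / b := by rw [hx]; push_cast; rfl
  obtain ⟨σ, hσ, hdet⟩ := nv_A x s
  have hup := h2 s (by omega) (x : ℝ) (by rw [hxr]; exact hcon) σ hσ
  rw [← det_cast] at hup
  have hdeg : (Pm (H579.parA.D0 * s) σ).natDegree ≤ 32 * s + 7 :=
    (natDegree_Pm _ σ).trans (card_z1 hσ)
  obtain ⟨z, hz⟩ := interp_int hdeg (m := m)
    (fun y => by rw [eval_Pm]; exact hint σ hσ y) a hb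
  rw [← hx, eval_Pm] at hz
  set d := (Mx (H579.parA.D0 * s) x σ).det with hd
  have hfac := h3 s (by omega)
  obtain ⟨n, hn⟩ : ∃ n, n = 32 * s + 7 := ⟨_, rfl⟩
  rw [← hn] at hz hfac
  have hb' : (0 : ℝ) < b := by exact_mod_cast Nat.pos_of_ne_zero hb
  have hf0 : (0 : ℝ) < n.factorial := by exact_mod_cast n.factorial_pos
  have hm0' : (0 : ℝ) < m := by exact_mod_cast hm0
  have hd0 : (0 : ℝ) < |(d : ℝ)| := abs_pos.2 (by exact_mod_cast hdet)
  have hz0 : z ≠ 0 := by
    rintro rfl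
    have hbq : (b : ℚ) ≠ 0 := by exact_mod_cast hb
    have hfq : (n.factorial : ℚ) ≠ 0 := by exact_mod_cast n.factorial_ne_zero
    exact mul_ne_zero (mul_ne_zero hfq (pow_ne_zero _ hbq)) (mul_ne_zero hm0.ne' hdet)
      (by rw [hz]; simp)
  have hzr : (n.factorial : ℝ) * (b : ℝ) ^ n * (m * d) = z := by exact_mod_cast hz
  have hz1 : (1 : ℝ) ≤ (n.factorial : ℝ) * (b : ℝ) ^ n * (m * |(d : ℝ)|) := by
    have h4 : (1 : ℝ) ≤ |(z : ℝ)| := by exact_mod_cast Int.one_le_abs hz0
    rw [← hzr, abs_mul, abs_mul (m : ℝ), abs_of_pos hm0',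
      abs_of_pos (mul_pos hf0 (pow_pos hb' n))] at h4
    exact h4
  have hlog := Real.log_nonneg hz1
  rw [Real.log_mul (by positivity) (by positivity), Real.log_mul hf0.ne' (by positivity),
    Real.log_mul hm0'.ne' hd0.ne', Real.log_pow] at hlog
  have hupl : Real.log |(d : ℝ)| ≤ -(4170 - 1 / 2000) * (s : ℝ) ^ 2 := by
    rw [← Real.log_exp (-(4170 - 1 / 2000) * (s : ℝ) ^ 2)]
    exact Real.log_le_log hd0 hup
  have hs0 : (2000 : ℝ) ≤ s := by exact_mod_cast (by omega : 2000 ≤ s)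
  have hnr : (n : ℝ) = 32 * s + 7 := by rw [hn]; push_cast; ring
  have hl2 := Real.log_two_lt_d9
  have hsq : (0 : ℝ) ≤ (s : ℝ) ^ 2 := sq_nonneg _
  have h5 : (104393 / 60 + 1 / 2000 + (13945 / 4 + 1 / 2000) * Real.log 2) * (s : ℝ) ^ 2
      ≤ (41563686 / 10000) * (s : ℝ) ^ 2 := mul_le_mul_of_nonneg_right (by linarith) hsq
  have h6 : (n : ℝ) * Real.log b ≤ n * (1000 / 2348 * s) :=
    mul_le_mul_of_nonneg_left (by linarith) (by linarith)
  rw [hnr] at h6 hlog
  nlinarith

/-- **the irrationality measure**, in exponential form -/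
theorem measure_exp : ∃ C : ℝ, ∀ (p : ℤ) (q : ℕ), 1 ≤ q →
    Real.exp (-(C + 167096 / 100 * Real.log q)) < |Gc - (p : ℝ) / q| := by
  obtain ⟨s0, h0⟩ := key_step
  refine ⟨71165 / 100 * (s0 + 1) + 1671, fun p q hq => ?_⟩
  have hq' : (1 : ℝ) ≤ q := by exact_mod_cast hq
  have hlq : 0 ≤ Real.log q := Real.log_nonneg hq'
  have hl2 := Real.log_two_lt_d9
  have hl2' := Real.log_pos one_lt_two
  have hlb : Real.log ((2 * q : ℕ) : ℝ) = Real.log 2 + Real.log q := by
    push_cast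
    rw [Real.log_mul (by norm_num) (by linarith)]
  obtain ⟨k, hk⟩ : ∃ k : ℕ, k = ⌈(2348 / 1000 : ℝ) * Real.log ((2 * q : ℕ) : ℝ)⌉₊ := ⟨_, rfl⟩
  have hk1 : (2348 / 1000 : ℝ) * Real.log ((2 * q : ℕ) : ℝ) ≤ k := by
    rw [hk]; exact Nat.le_ceil _
  have hk2 : (k : ℝ) < (2348 / 1000 : ℝ) * Real.log ((2 * q : ℕ) : ℝ) + 1 := by
    rw [hk]
    refine Nat.ceil_lt_add_one ?_
    rw [hlb]; positivity
  have hs0 : (0 : ℝ) ≤ s0 := Nat.cast_nonneg _
  have h1 := h0 (s0 + k) (by omega) p (2 * q) (by omega) (by push_cast at hk1 ⊢; linarith)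
  have e : (p : ℝ) / ((2 * q : ℕ) : ℝ) - Gc / 2 = -(1 / 2) * (Gc - (p : ℝ) / q) := by
    push_cast
    field_simp
    ring
  rw [e, abs_mul, abs_neg, abs_of_pos (by norm_num : (0 : ℝ) < 1 / 2)] at h1
  have h2 : Real.exp (-(71165 / 100 * (s0 + 1) + 1671 + 167096 / 100 * Real.log q))
      ≤ Real.exp (-(71165 / 100 * ((s0 + k : ℕ) : ℝ))) := by
    refine Real.exp_le_exp.2 ?_
    rw [hlb] at hk2
    push_cast
    linarith
  have h3 := abs_nonneg (Gc - (p : ℝ) / q)
  linarith

/-- **the irrationality exponent of Catalan's constant is at most `1671`** -/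
theorem measure_pow : ∃ q0 : ℕ, ∀ q : ℕ, q0 ≤ q → ∀ p : ℤ,
    1 / (q : ℝ) ^ 1671 < |Gc - (p : ℝ) / q| := by
  obtain ⟨C, hC⟩ := measure_exp
  obtain ⟨q1, hq1⟩ := exists_nat_ge (Real.exp (25 * C))
  refine ⟨max q1 1, fun q hq p => lt_of_le_of_lt ?_ (hC p q ((le_max_right _ _).trans hq))⟩
  have h1 : (1 : ℝ) ≤ q := by exact_mod_cast (le_max_right _ _).trans hq
  have h2 : (q1 : ℝ) ≤ q := by exact_mod_cast (le_max_left _ _).trans hq
  have h3 : 25 * C ≤ Real.log q := by
    rw [← Real.log_exp (25 * C)]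
    exact Real.log_le_log (Real.exp_pos _) (hq1.trans h2)
  have e : 1 / (q : ℝ) ^ 1671 = Real.exp (-(1671 * Real.log q)) := by
    have e1 : (1671 : ℝ) * Real.log q = Real.log ((q : ℝ) ^ 1671) := by
      rw [Real.log_pow]; norm_num
    rw [e1, Real.exp_neg, Real.exp_log (by positivity), one_div]
  rw [e]
  exact Real.exp_le_exp.2 (by linarith)

theorem not_liouvilleWith : ¬ LiouvilleWith 1671 Gc := by
  obtain ⟨C, hC⟩ := measure_exp
  rintro ⟨K, hK⟩
  obtain ⟨q1, hq1⟩ := exists_nat_ge (Real.exp (25 * (C + |K|)))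
  obtain ⟨q, ⟨p, -, hp⟩, hq⟩ := (hK.and_eventually (Filter.eventually_ge_atTop (max q1 1))).exists
  have h0 := hC p q ((le_max_right _ _).trans hq)
  have h1 : (1 : ℝ) ≤ q := by exact_mod_cast (le_max_right _ _).trans hq
  have h2 : (q1 : ℝ) ≤ q := by exact_mod_cast (le_max_left _ _).trans hq
  have h3 : 25 * (C + |K|) ≤ Real.log q := by
    rw [← Real.log_exp (25 * (C + |K|))]
    exact Real.log_le_log (Real.exp_pos _) (hq1.trans h2)
  have h4 : K ≤ Real.exp |K| := by
    have := Real.add_one_le_exp |K|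
    linarith [le_abs_self K]
  have h5 : K / (q : ℝ) ^ (1671 : ℝ) ≤ Real.exp (|K| - 1671 * Real.log q) := by
    rw [Real.rpow_def_of_pos (by linarith), Real.exp_sub, mul_comm]
    exact div_le_div_of_nonneg_right h4 (Real.exp_pos _).le
  have h6 : Real.exp (|K| - 1671 * Real.log q)
      ≤ Real.exp (-(C + 167096 / 100 * Real.log q)) := Real.exp_le_exp.2 (by linarith)
  linarith

theorem irrational_Gc : Irrational Gc := by
  obtain ⟨C, hC⟩ := measure_exp
  rintro ⟨x, hx⟩
  have h := hC x.num x.den x.den_pos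
  rw [← hx, Rat.cast_def, sub_self, abs_zero] at h
  exact absurd h (Real.exp_pos _).not_gt

theorem not_liouville : ¬ Liouville Gc := fun h => not_liouvilleWith (h.liouvilleWith _)

end Vale.Agent.N030
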