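import Vale.Agent.P030.H792.OdFinal

/-!
# P030, irrationality measure: the odd primes, uniformly in the point `x`

The local bounds of the starting files hold with a threshold `s0` that does not depend on `x`.
-/

open MeasureTheory Set Filter Topology

set_option linter.unusedVariables false

namespace Vale.Agent.N030

open Vale.Agent.P030 Vale.Agent.P030.T

/-- a local bound of profile `φ` for `a ≤ p / s < b`, uniform in `x` -/
def LR (P : Par) (c0 : ℕ) (a b : ℝ) (φ : ℝ → ℝ) : Prop :=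
  ∀ δ : ℝ, 0 < δ → ∀ η : ℝ, 0 < η → ∃ s0 : ℕ, ∀ s : ℕ, s0 ≤ s → ∀ x : ℚ,
    ∀ p : ℕ, p.Prime → p ≠ 2 → x.den < p → δ * s < p → a ≤ (p : ℝ) / s → (p : ℝ) / s < b →
    ∀ σ, Adm P c0 s σ → (Mx (P.D0 * s) x σ).det ≠ 0 →
    -(s * (φ (p / s) + η)) ≤ (padicValRat p (Mx (P.D0 * s) x σ).det : ℝ)

/-- the denominators at the odd primes, for all integer points at once -/
def OdU (P : Par) (c0 : ℕ) (B : ℝ) : Prop :=
  ∀ ε : ℝ, 0 < ε → ∃ s0 : ℕ, ∀ s, s0 ≤ s → ∃ (S : Finset ℕ) (c : ℕ → ℤ),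
    (∀ p ∈ S, p.Prime ∧ p ≠ 2) ∧ (∑ p ∈ S, (c p : ℝ) * Real.log p ≤ (B + ε) * (s : ℝ) ^ 2) ∧
    ∀ x : ℚ, x.den = 1 →
    ∀ σ, Adm P c0 s σ → (Mx (P.D0 * s) x σ).det ≠ 0 → ∀ p : ℕ, p.Prime → p ≠ 2 →
      (if p ∈ S then -c p else 0) ≤ padicValRat p (Mx (P.D0 * s) x σ).det

theorem LR.union {P : Par} {c0 : ℕ} {a b c : ℝ} {φ : ℝ → ℝ}
    (h1 : LR P c0 a b φ) (h2 : LR P c0 b c φ) : LR P c0 a c φ := by
  intro δ hδ η hη
  obtain ⟨s1, hs1⟩ := h1 δ hδ η hη
  obtain ⟨s2, hs2⟩ := h2 δ hδ η hη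
  refine ⟨max s1 s2, fun s hs x p hpp hp2 hxp hδp hap hbp σ hσ hdet => ?_⟩
  by_cases hb : (p : ℝ) / s < b
  · exact hs1 s ((le_max_left _ _).trans hs) x p hpp hp2 hxp hδp hap hb σ hσ hdet
  · exact hs2 s ((le_max_right _ _).trans hs) x p hpp hp2 hxp hδp (not_lt.1 hb) hbp σ hσ hdet

theorem LR.cut {P : Par} {c0 : ℕ} {a b a' b' : ℝ} {φ ψ : ℝ → ℝ}
    (h : LR P c0 a b φ) (ha : a ≤ a') (hb : b' ≤ b)
    (hle : ∀ q, a' ≤ q → q < b' → φ q ≤ ψ q) : LR P c0 a' b' ψ := by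
  intro δ hδ η hη
  obtain ⟨s0, hs0⟩ := h δ hδ η hη
  refine ⟨s0, fun s hs x p a1 a2 a3 a3' a4 a5 σ hσ hdet => le_trans ?_
    (hs0 s hs x p a1 a2 a3 a3' (ha.trans a4) (a5.trans_le hb) σ hσ hdet)⟩
  have h2 := hle _ a4 a5
  have h3 : (0 : ℝ) ≤ s := Nat.cast_nonneg _
  nlinarith

/-! ### the lattices -/

section lat

open Finset Vale.Agent.P030.H792

/-- the lattice `m` -/
theorem lr_m (P : Par) (c0 : ℕ) {m : ℤ} (hm0 : 0 ≤ m) (hm2 : m ≤ 2) (a b : ℝ) :
    LR P c0 a b (cstm P H678.wg m) := by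
  obtain ⟨wg, hwg⟩ : ∃ wg, wg = H678.wg := ⟨_, rfl⟩
  have hIn : ∀ (p : ℕ) [Fact p.Prime], 5 ≤ p → ∀ (D : ℕ) (N : Gp → ℕ),
      (∀ g, N g + 2 ≤ p ^ 2) → LocIn p D N wg H678.hK := by
    intro p _ hp5 D N hN
    rw [hwg]
    exact locIn p hp5 D N hN
  rw [← hwg]
  intro δ hδ η hη
  obtain ⟨s0, hs0⟩ := exists_s0 (∑ g : Gp, P.ht g) c0 (C := 1 + 17 * (2 * c0 + 6)) hδ hη
  refine ⟨s0, fun s hs x p hpp hp2 hxp hδp _ _ σ hσ hdet => ?_⟩
  have := Fact.mk hpp
  obtain ⟨hspos, hC, hpN⟩ := hs0 s hs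
  obtain ⟨hp5, hN⟩ := hpN p hδp
  have hs0 : (0 : ℝ) < s := by exact_mod_cast hspos
  have hL := hIn p hp5 (P.D0 * s) (fun g => P.ht g * s + c0) fun g =>
    hN _ (Finset.single_le_sum (f := P.ht) (fun _ _ => Nat.zero_le _) (Finset.mem_univ g))
  have h1 := le_val_m hσ hdet (norm_x_le_one hxp) hL hm0 hm2
  have h1' : (((8 * (2 - m) * ((P.D0 * s : ℕ) : ℤ)
        - latIdx p (P.D0 * s) (em m) (max (1 - m) 0) (max (2 - m) 0)
        - ∑ g : Gp, ((2 - wg g) * (P.ht g * s + c0 : ℕ)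
          - max (m - wg g) 0 * (min (P.ht g * s + c0) (p - 3) : ℕ)) : ℤ)) : ℝ)
      ≤ (padicValRat p (Mx (P.D0 * s) x σ).det : ℝ) := by exact_mod_cast h1
  refine le_trans ?_ h1'
  have h2 := latIdx_le (D := P.D0 * s) hpp.one_lt.le hm0
  have ht : (s : ℝ) * (p / s) = p := by field_simp
  have e1 : (s : ℝ) * max ((P.D0 : ℝ) - p / s) 0 = max (((P.D0 * s : ℕ) : ℝ) - p) 0 := by
    rw [mul_max_of_nonneg _ _ hs0.le, mul_sub, ht, mul_zero]
    push_cast
    rw [mul_comm]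
  have e2 : (s : ℝ) * min (P.D0 : ℝ) (p / s) = min ((P.D0 * s : ℕ) : ℝ) p := by
    rw [mul_min_of_nonneg _ _ hs0.le, ht]
    push_cast
    rw [mul_comm]
  have e3 : (s : ℝ) * idxm P.D0 m (p / s)
      = ((em m 0 + em m 1 + em m 2 + em m 3 + em m 4 + em m 5 + em m 6 : ℤ) : ℝ)
          * ((P.D0 * s : ℕ) : ℝ)
        + ((max (1 - m) 0 : ℤ) : ℝ) * max (((P.D0 * s : ℕ) : ℝ) - p) 0
        + ((max (2 - m) 0 : ℤ) : ℝ) * min ((P.D0 * s : ℕ) : ℝ) p := by
    unfold idxm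
    rw [mul_add, mul_add, ← e1, ← e2]
    push_cast
    ring
  have h3 : (((∑ g : Gp, ((2 - wg g) * (P.ht g * s + c0 : ℕ)
          - max (m - wg g) 0 * (min (P.ht g * s + c0) (p - 3) : ℕ)) : ℤ)) : ℝ)
      ≤ s * (∑ g : Gp, ((2 - (wg g : ℝ)) * P.ht g
        - ((max (m - wg g) 0 : ℤ) : ℝ) * min (P.ht g : ℝ) (p / s))) + 17 * (2 * c0 + 6) := by
    rw [Int.cast_sum, Finset.mul_sum]
    have h4 : ∑ _g : Gp, (2 * (c0 : ℝ) + 6) = 17 * (2 * c0 + 6) := by
      rw [Finset.sum_const, Finset.card_univ, nsmul_eq_mul]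
      rfl
    rw [← h4, ← Finset.sum_add_distrib]
    exact Finset.sum_le_sum fun g _ =>
      group_term hspos (by omega) (hL.nn g) (hL.le2 g) hm2
  have h5 : (s : ℝ) * (cstm P wg m (p / s) + η)
      = s * idxm P.D0 m (p / s) - 8 * (2 - m) * ((P.D0 * s : ℕ) : ℝ)
        + s * (∑ g : Gp, ((2 - (wg g : ℝ)) * P.ht g
          - ((max (m - wg g) 0 : ℤ) : ℝ) * min (P.ht g : ℝ) (p / s))) + η * s := by
    unfold cstm
    push_cast
    ring
  rw [h5, e3]
  rw [Int.cast_sub, Int.cast_sub]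
  have h6 : (((8 * (2 - m) * ((P.D0 * s : ℕ) : ℤ) : ℤ)) : ℝ)
      = 8 * (2 - m) * ((P.D0 * s : ℕ) : ℝ) := by push_cast; ring
  rw [h6]
  linarith

end lat

/-! ### line (I) -/

section lineA

open Finset Vale.Agent.P030.H404

theorem lr_A (P : Par) (c0 : ℕ) {T0 : ℝ} (hT : ∀ g, (P.ht g : ℝ) < 2 * T0)
    (hvb : (P.ht .vb : ℝ) < T0) (hx1 : (P.ht .x1 : ℝ) < T0) :
    ∀ η : ℝ, 0 < η → ∃ s0 : ℕ, ∀ s : ℕ, s0 ≤ s → ∀ x : ℚ,
      ∀ p : ℕ, p.Prime → x.den < p → T0 * s < p →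
      ∀ σ, Adm P c0 s σ → (Mx (P.D0 * s) x σ).det ≠ 0 →
      -(s * (phiA P (p / s) + η)) ≤ (padicValRat p (Mx (P.D0 * s) x σ).det : ℝ) := by
  intro η hη
  have hT0 : 0 < T0 := lt_of_le_of_lt (Nat.cast_nonneg _) hvb
  -- thresholds
  have hA : ∀ g, ∃ s1 : ℕ, ∀ s : ℕ, s1 ≤ s → ∀ p : ℕ, T0 * s < p → P.ht g * s + c0 + 1 ≤ 2 * p := by
    intro g
    obtain ⟨s1, hs1⟩ := exists_nat_gt ((c0 + 1 : ℝ) / (2 * T0 - P.ht g))
    refine ⟨s1, fun s hs p hp => ?_⟩
    have hpos : 0 < 2 * T0 - P.ht g := by linarith [hT g]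
    have h1 := (div_lt_iff₀ hpos).1 hs1
    have h2 : (s1 : ℝ) ≤ s := by exact_mod_cast hs
    have h3 := mul_le_mul_of_nonneg_right h2 hpos.le
    have h4 : ((P.ht g * s + c0 + 1 : ℕ) : ℝ) ≤ ((2 * p : ℕ) : ℝ) := by
      push_cast
      nlinarith
    exact_mod_cast h4
  have hB : ∀ h : ℕ, (h : ℝ) < T0 → ∃ s1 : ℕ, ∀ s : ℕ, s1 ≤ s → ∀ p : ℕ, T0 * s < p →
      h * s + c0 + 3 ≤ p := by
    intro h hh
    obtain ⟨s1, hs1⟩ := exists_nat_gt ((c0 + 3 : ℝ) / (T0 - h))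
    refine ⟨s1, fun s hs p hp => ?_⟩
    have hpos : 0 < T0 - h := by linarith
    have h1 := (div_lt_iff₀ hpos).1 hs1
    have h2 : (s1 : ℝ) ≤ s := by exact_mod_cast hs
    have h3 := mul_le_mul_of_nonneg_right h2 hpos.le
    have h4 : ((h * s + c0 + 3 : ℕ) : ℝ) ≤ (p : ℝ) := by
      push_cast
      nlinarith
    exact_mod_cast h4
  choose f hf using hA
  obtain ⟨s2, hs2⟩ := hB _ hvb
  obtain ⟨s3, hs3⟩ := hB _ hx1
  obtain ⟨s4, hs4⟩ := exists_nat_gt (5 / T0 : ℝ)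
  obtain ⟨s5, hs5⟩ := exists_nat_gt ((17 * (3 * c0 + 6) : ℝ) / η)
  refine ⟨Finset.univ.sup f + s2 + s3 + s4 + s5 + 1, fun s hs x p hpp hxp hTp σ hσ hdet => ?_⟩
  have := Fact.mk hpp
  have hs0N : 0 < s := by omega
  have hs0 : (0 : ℝ) < s := by exact_mod_cast hs0N
  have hfs : ∀ g, f g ≤ s := fun g => by
    have := Finset.le_sup (f := f) (Finset.mem_univ g)
    omega
  have h2p : ∀ g, P.ht g * s + c0 + 1 ≤ 2 * p := fun g => hf g s (hfs g) p hTp
  have hvb' := hs2 s (by omega) p hTp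
  have hx1' := hs3 s (by omega) p hTp
  have hp5 : 5 ≤ p := by
    have h1 := (div_lt_iff₀ hT0).1 hs4
    have h2 : (s4 : ℝ) ≤ s := by exact_mod_cast (by omega : s4 ≤ s)
    have h3 := mul_le_mul_of_nonneg_right h2 hT0.le
    have h4 : ((5 : ℕ) : ℝ) ≤ p := by push_cast; linarith
    exact_mod_cast h4
  have hC : (17 * (3 * c0 + 6) : ℝ) ≤ η * s := by
    have h1 := (div_lt_iff₀ hη).1 hs5
    have h2 : (s5 : ℝ) ≤ s := by exact_mod_cast (by omega : s5 ≤ s)
    have h3 := mul_le_mul_of_nonneg_right h2 hη.le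
    linarith
  -- the choice
  set N : Gp → ℕ := fun g => P.ht g * s + c0 with hN
  set m0 := min (min (N .zab) (N .z8)) (N .z1 - p) with hm0
  set m1 := min (min (min (N .wab) (N .wf7)) (min (N .wy) (N .w8)))
    (min (N .w1 - p) (N .wl - p)) with hm1
  have hN2 : ∀ g, N g + 1 ≤ 2 * p := h2p
  have hm0a : m0 ≤ N .zab ∧ m0 ≤ N .z8 ∧ m0 ≤ N .z1 - p :=
    ⟨(min_le_left _ _).trans (min_le_left _ _), (min_le_left _ _).trans (min_le_right _ _),
      min_le_right _ _⟩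
  have hm1a : m1 ≤ N .wab ∧ m1 ≤ N .wf7 ∧ m1 ≤ N .wy ∧ m1 ≤ N .w8 ∧ m1 ≤ N .w1 - p
      ∧ m1 ≤ N .wl - p :=
    ⟨(min_le_left _ _).trans ((min_le_left _ _).trans (min_le_left _ _)),
      (min_le_left _ _).trans ((min_le_left _ _).trans (min_le_right _ _)),
      (min_le_left _ _).trans ((min_le_right _ _).trans (min_le_left _ _)),
      (min_le_left _ _).trans ((min_le_right _ _).trans (min_le_right _ _)),
      (min_le_right _ _).trans (min_le_left _ _),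
      (min_le_right _ _).trans (min_le_right _ _)⟩
  have hyp : HypA p P c0 s m0 m1 m1 (P.D0 * s - (m1 + p)) := by
    constructor
    · exact hp5
    · intro g; have := h2p g; omega
    · intro g
      have h1 := h2p g
      have h2 : 2 * p ≤ p ^ 2 := two_p_le
      omega
    · exact hvb'
    · exact hx1'
    · have := hN2 .z1; omega
    · have := hN2 .w1; omega
    · exact hm0a.1
    · exact hm0a.2.1
    · have h1 := hm0a.2.2
      show p + m0 ≤ max p (N .z1)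
      rcases le_total p (N .z1) with h3 | h3
      · rw [max_eq_right h3]; omega
      · rw [max_eq_left h3]; omega
    · exact hm1a.1
    · exact hm1a.2.1
    · exact hm1a.2.2.1
    · exact hm1a.2.2.2.1
    · have h1 := hm1a.2.2.2.2.1
      show p + m1 ≤ max p (N .w1)
      rcases le_total p (N .w1) with h3 | h3
      · rw [max_eq_right h3]; omega
      · rw [max_eq_left h3]; omega
    · have h1 := hm1a.2.2.2.2.2
      show p + m1 ≤ max p (N .wl)
      rcases le_total p (N .wl) with h3 | h3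
      · rw [max_eq_right h3]; omega
      · rw [max_eq_left h3]; omega
    · exact le_rfl
    · omega
  have hxn : padicNorm p x ≤ 1 := by
    refine H792.norm_of_den_ne_zero ?_
    intro h0
    rw [ZMod.natCast_eq_zero_iff] at h0
    exact absurd (Nat.le_of_dvd x.den_pos h0) (by omega)
  have h1 := le_val_A hσ hdet hxn hyp
  have h2 := sum_wA_le (p := p) (P := P) (c0 := c0) (s := s) (m0 := m0) (m1 := m1) (by
    intro g
    cases g with
    | zab => exact hm0a.1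
    | wab => exact hm1a.1
    | wf7 => exact hm1a.2.1
    | _ => exact Nat.zero_le _)
  have h3 : ((P.D0 * s - (m1 + p) : ℕ) : ℤ) + 8 * ((P.D0 * s : ℕ) : ℤ) + ((m0 + 2 * m1 : ℕ) : ℤ)
      - ∑ g : Gp, (((P.ht g * s + c0 : ℕ) : ℤ)
          + (2 - H678.wg g) * ((P.ht g * s + c0 - (p - 3) : ℕ) : ℤ))
      ≤ padicValRat p (Mx (P.D0 * s) x σ).det := by omega
  have h3' : (((P.D0 * s - (m1 + p) : ℕ) : ℤ) + 8 * ((P.D0 * s : ℕ) : ℤ)
      + ((m0 + 2 * m1 : ℕ) : ℤ) - ∑ g : Gp, (((P.ht g * s + c0 : ℕ) : ℤ)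
          + (2 - H678.wg g) * ((P.ht g * s + c0 - (p - 3) : ℕ) : ℤ)) : ℝ)
      ≤ (padicValRat p (Mx (P.D0 * s) x σ).det : ℝ) := by exact_mod_cast h3
  refine le_trans ?_ h3'
  -- real estimates
  have g0 : (s : ℝ) * mu0 P (p / s) ≤ (m0 : ℝ) := by
    unfold mu0
    rw [mul_min_of_nonneg _ _ hs0.le, mul_min_of_nonneg _ _ hs0.le, hm0, Nat.cast_min, Nat.cast_min]
    exact min_le_min (min_le_min ht_ge ht_ge) (nat_sub_ge hs0N)
  have g1 : (s : ℝ) * mu1 P (p / s) ≤ (m1 : ℝ) := by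
    unfold mu1
    rw [mul_min_of_nonneg _ _ hs0.le, mul_min_of_nonneg _ _ hs0.le, mul_min_of_nonneg _ _ hs0.le,
      mul_min_of_nonneg _ _ hs0.le, mul_min_of_nonneg _ _ hs0.le, hm1, Nat.cast_min, Nat.cast_min,
      Nat.cast_min, Nat.cast_min, Nat.cast_min]
    exact min_le_min (min_le_min (min_le_min ht_ge ht_ge) (min_le_min ht_ge ht_ge))
      (min_le_min (nat_sub_ge hs0N) (nat_sub_ge hs0N))
  have g2 : (s : ℝ) * max ((P.D0 : ℝ) - p / s) (mu1 P (p / s))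
      ≤ ((P.D0 * s - (m1 + p) : ℕ) : ℝ) + m1 := by
    rw [mul_max_of_nonneg _ _ hs0.le, mul_sub]
    have e : (s : ℝ) * (p / s) = p := by field_simp
    rw [e]
    refine max_le ?_ ?_
    · have h4 : ((P.D0 * s : ℕ) : ℝ) ≤ ((P.D0 * s - (m1 + p) : ℕ) : ℝ) + m1 + p := by
        exact_mod_cast (by omega : P.D0 * s ≤ (P.D0 * s - (m1 + p)) + m1 + p)
      push_cast at h4 ⊢
      linarith
    · have : (0 : ℝ) ≤ ((P.D0 * s - (m1 + p) : ℕ) : ℝ) := Nat.cast_nonneg _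
      linarith
  have g3 : ((∑ g : Gp, (((P.ht g * s + c0 : ℕ) : ℤ)
          + (2 - H678.wg g) * ((P.ht g * s + c0 - (p - 3) : ℕ) : ℤ)) : ℤ) : ℝ)
      ≤ s * (∑ g : Gp, ((P.ht g : ℝ) + (2 - (H678.wg g : ℝ)) * max ((P.ht g : ℝ) - p / s) 0))
        + 17 * (3 * c0 + 6) := by
    rw [Int.cast_sum, Finset.mul_sum]
    have h4 : ∑ _g : Gp, (3 * (c0 : ℝ) + 6) = 17 * (3 * c0 + 6) := by
      rw [Finset.sum_const, Finset.card_univ, nsmul_eq_mul]
      rfl
    rw [← h4, ← Finset.sum_add_distrib]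
    refine Finset.sum_le_sum fun g _ => ?_
    have hw0 : (0 : ℝ) ≤ 2 - (H678.wg g : ℝ) := by
      have : H678.wg g ≤ 2 := by cases g <;> decide
      have : (H678.wg g : ℝ) ≤ 2 := by exact_mod_cast this
      linarith
    have hw2 : 2 - (H678.wg g : ℝ) ≤ 2 := by
      have : 0 ≤ H678.wg g := by cases g <;> decide
      have : (0 : ℝ) ≤ (H678.wg g : ℝ) := by exact_mod_cast this
      linarith
    have h5 : ((P.ht g * s + c0 - (p - 3) : ℕ) : ℝ)
        ≤ s * max ((P.ht g : ℝ) - p / s) 0 + (c0 + 3) := by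
      rw [mul_max_of_nonneg _ _ hs0.le, mul_sub, mul_zero]
      have e : (s : ℝ) * (p / s) = p := by field_simp
      rw [e]
      have hc0 : (0 : ℝ) ≤ c0 := Nat.cast_nonneg _
      rcases le_total (p - 3) (P.ht g * s + c0) with h | h
      · rw [Nat.cast_sub h, Nat.cast_sub (by omega)]
        have := le_max_left ((s : ℝ) * (P.ht g : ℝ) - p) 0
        push_cast
        linarith [mul_comm (s : ℝ) (P.ht g : ℝ)]
      · rw [Nat.sub_eq_zero_of_le h]
        have := le_max_right ((s : ℝ) * (P.ht g : ℝ) - p) 0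
        push_cast
        linarith
    have h6 := mul_le_mul_of_nonneg_left h5 hw0
    have hc0 : (0 : ℝ) ≤ (c0 : ℝ) + 3 := by positivity
    have h7 : (2 - (H678.wg g : ℝ)) * ((c0 : ℝ) + 3) ≤ 2 * (c0 + 3) :=
      mul_le_mul_of_nonneg_right hw2 hc0
    push_cast at h6 ⊢
    linarith [mul_comm (s : ℝ) (P.ht g : ℝ)]
  have g4 : (s : ℝ) * (phiA P (p / s) + η)
      = s * (∑ g : Gp, ((P.ht g : ℝ) + (2 - (H678.wg g : ℝ)) * max ((P.ht g : ℝ) - p / s) 0))
        - 8 * (P.D0 * s) - s * mu0 P (p / s) - s * mu1 P (p / s)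
        - s * max ((P.D0 : ℝ) - p / s) (mu1 P (p / s)) + η * s := by
    unfold phiA
    ring
  rw [g4]
  push_cast at g3 ⊢
  linarith

end lineA

theorem lr_lineA (c0 : ℕ) {a b : ℝ} (ha : 33 / 2 < a) :
    LR DesA c0 a b (H404.phiA DesA) := by
  intro δ hδ η hη
  obtain ⟨s0, h0⟩ := lr_A DesA c0 (T0 := 33 / 2)
    (fun g => by
      have := H778.DesA_ht_le g
      linarith)
    (by simp only [DesA]; norm_num) (by simp only [DesA]; norm_num) η hη
  refine ⟨max s0 1, fun s hs x p a1 a2 a3 a4 a5 a6 => ?_⟩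
  have hs1 : (0 : ℝ) < s := by
    exact_mod_cast lt_of_lt_of_le Nat.one_pos ((le_max_right _ _).trans hs)
  exact h0 s ((le_max_left _ _).trans hs) x p a1 a3 ((lt_div_iff₀ hs1).1 (ha.trans_le a5))

/-! ### the dip -/

section dip

open Finset Vale.Agent.P030.H641 Vale.Agent.P030.H792

theorem lr_dip {c0 : ℕ} (h : RedAll c0) : LR H579.parA c0 9 (47 / 4) phiDip := by
  intro δ hδ η hη
  obtain ⟨s1, hs1⟩ := exists_nat_gt ((25 * c0 + 1) / η : ℝ)
  refine ⟨max s1 (c0 + 2), fun s hs x p hpp hp2 hxp _ hap hbp σ hσ hdet => ?_⟩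
  have := Fact.mk hpp
  have hsc : c0 + 2 ≤ s := (le_max_right _ _).trans hs
  have hs0 : (0 : ℝ) < s := by
    have : 1 ≤ s := by omega
    exact_mod_cast this
  have hss1 : (s1 : ℝ) ≤ s := by exact_mod_cast (le_max_left _ _).trans hs
  have hC : (25 * c0 + 1 : ℝ) ≤ η * s := by
    have h1 := (div_lt_iff₀ hη).1 hs1
    have h2 := mul_le_mul_of_nonneg_right hss1 hη.le
    linarith
  have hap' := hap
  have hbp' := hbp
  rw [le_div_iff₀ hs0] at hap
  rw [div_lt_iff₀ hs0] at hbp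
  have n1 : 9 * s ≤ p := by
    have : (9 : ℝ) * s ≤ p := by linarith
    exact_mod_cast this
  have n2 : 4 * p < 47 * s := by
    have : (4 : ℝ) * p < 47 * s := by linarith
    exact_mod_cast this
  have hp5 : 5 ≤ p := by omega
  have hsq : 32 * s + c0 + 2 ≤ p ^ 2 := by nlinarith
  have hxn := norm_x_le_one hxp
  have g := dip_bound hp5 hxn hsq hσ hdet (h p hp5 s x hxn (by omega) hsq) n1 (by omega)
  have hcard : (Adip s p).card
      = min p (32 * s - 2 * p) - max (27 * s + 1 - 2 * p) (p - 5 * s) := by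
    unfold Adip; rw [Nat.card_Ico]
  rw [hcard] at g
  set v := padicValRat p (Mx (H579.parA.D0 * s) x σ).det with hv
  have hps : (s : ℝ) * ((p : ℝ) / s) = p := by field_simp
  unfold phiDip
  by_cases h10 : p < 10 * s
  · have hr : (p : ℝ) / s < 10 := by
      rw [div_lt_iff₀ hs0]; exact_mod_cast h10
    rw [if_pos hr]
    have g1 : (2 * p - 92 * s - 25 * c0 - 1 : ℤ) ≤ v := by omega
    have g2 : ((2 * p - 92 * s - 25 * c0 - 1 : ℤ) : ℝ) ≤ (v : ℝ) := by exact_mod_cast g1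
    push_cast at g2
    have e : (s : ℝ) * (92 - 2 * ((p : ℝ) / s) + η) = 92 * s - 2 * (s * ((p : ℝ) / s)) + η * s := by
      ring
    rw [e, hps]
    linarith
  · have hr : ¬ (p : ℝ) / s < 10 := by
      rw [not_lt, le_div_iff₀ hs0]; exact_mod_cast not_lt.1 h10
    rw [if_neg hr]
    by_cases h11 : 3 * p < 32 * s
    · have hr' : (p : ℝ) / s < 32 / 3 := by
        rw [div_lt_iff₀ hs0]
        have : (3 : ℝ) * p < 32 * s := by exact_mod_cast h11
        linarith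
      rw [if_pos hr']
      have g1 : (p - 82 * s - 25 * c0 - 1 : ℤ) ≤ v := by omega
      have g2 : ((p - 82 * s - 25 * c0 - 1 : ℤ) : ℝ) ≤ (v : ℝ) := by exact_mod_cast g1
      push_cast at g2
      have e : (s : ℝ) * (82 - ((p : ℝ) / s) + η) = 82 * s - (s * ((p : ℝ) / s)) + η * s := by
        ring
      rw [e, hps]
      linarith
    · have hr' : ¬ (p : ℝ) / s < 32 / 3 := by
        rw [not_lt, le_div_iff₀ hs0]
        have : (32 : ℝ) * s ≤ 3 * p := by exact_mod_cast not_lt.1 h11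
        linarith
      rw [if_neg hr']
      have g1 : (-5 * p - 18 * s - 25 * c0 - 1 : ℤ) ≤ v := by omega
      have g2 : ((-5 * p - 18 * s - 25 * c0 - 1 : ℤ) : ℝ) ≤ (v : ℝ) := by exact_mod_cast g1
      push_cast at g2
      have e : (s : ℝ) * (18 + 5 * ((p : ℝ) / s) + η) = 18 * s + 5 * (s * ((p : ℝ) / s)) + η * s := by
        ring
      rw [e, hps]
      linarith

end dip

/-! ### the kernel family -/

section kap

open Vale.Agent.P030.H611

theorem lr_kap {c0 : ℕ} (h : KapAll c0) :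
    LR H579.parA c0 (32 / 3) (25 / 2) (fun q => 40 + 3 * q) := by
  intro δ hδ η hη
  obtain ⟨s1, hs1⟩ := exists_nat_gt ((10 * c0) / η : ℝ)
  refine ⟨max s1 (4 * c0 + 2), fun s hs x p hpp hp2 hxp _ hap hbp σ hσ hdet => ?_⟩
  have := Fact.mk hpp
  have hsc : 4 * c0 + 2 ≤ s := (le_max_right _ _).trans hs
  have hs0 : (0 : ℝ) < s := by
    have : 1 ≤ s := by omega
    exact_mod_cast this
  have hss1 : (s1 : ℝ) ≤ s := by exact_mod_cast (le_max_left _ _).trans hs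
  have hC : (10 * c0 : ℝ) ≤ η * s := by
    have h1 := (div_lt_iff₀ hη).1 hs1
    have h2 := mul_le_mul_of_nonneg_right hss1 hη.le
    linarith
  rw [le_div_iff₀ hs0] at hap
  rw [div_lt_iff₀ hs0] at hbp
  have n1 : 32 * s ≤ 3 * p := by
    have : (32 : ℝ) * s ≤ 3 * p := by linarith
    exact_mod_cast this
  have n2 : 2 * p < 25 * s := by
    have : (2 : ℝ) * p < 25 * s := by linarith
    exact_mod_cast this
  have hp5 : 5 ≤ p := by omega
  have hsq : 32 * s + c0 + 2 ≤ p ^ 2 := by nlinarith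
  have hxn := H792.norm_x_le_one hxp
  have g := kap_val_A h p hp5 hxn (by omega) hsq n1 (by omega) hσ hdet
  have hps : (s : ℝ) * ((p : ℝ) / s) = p := by field_simp
  have g2 : ((-(40 * (s : ℤ) + 3 * p + 10 * c0) : ℤ) : ℝ)
      ≤ (padicValRat p (Mx (H579.parA.D0 * s) x σ).det : ℝ) := by exact_mod_cast g
  push_cast at g2
  have e : (s : ℝ) * (40 + 3 * ((p : ℝ) / s) + η) = 40 * s + 3 * (s * ((p : ℝ) / s)) + η * s := by
    ring
  change -((s : ℝ) * (40 + 3 * ((p : ℝ) / s) + η)) ≤ _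
  rw [e, hps]
  linarith

end kap

/-! ### lists of pieces -/

section pieces

open Vale.Agent.P030.H778

/-- the local bounds on all pieces -/
def LP (P : Par) (c0 : ℕ) : ℝ → List (ℝ × ℝ × ℝ) → Prop
  | _, [] => True
  | a, e :: L => LR P c0 a e.1 (fun q => e.2.1 * q + e.2.2) ∧ LP P c0 e.1 L

theorem lr_pw {P : Par} {c0 : ℕ} {L : List (ℝ × ℝ × ℝ)} : ∀ {a : ℝ}, pwS a L →
    LP P c0 a L → LR P c0 a (pwE a L) (pw L) := by
  induction L with
  | nil =>
    intro a _ _ δ _ η _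
    refine ⟨0, fun s _ x p _ _ _ _ h1 h2 => ?_⟩
    exact absurd (h1.trans_lt h2) (lt_irrefl _)
  | cons e L ih =>
    intro a hs h
    refine (h.1.cut le_rfl le_rfl fun q _ hq => ?_).union
      ((ih hs.2 h.2).cut le_rfl le_rfl fun q hq _ => ?_)
    · simp only [pw, if_pos hq]; exact le_rfl
    · simp only [pw, if_neg (not_lt.2 hq)]; exact le_rfl

theorem lr0 (c0 : ℕ) {a b : ℝ} (hb : b ≤ 27) :
    LR H579.parA c0 a b (fun q => 1 * q + 65) := by
  rw [parA_eq]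
  refine (lr_m DesA c0 (m := 0) (by norm_num) (by norm_num) a b).cut le_rfl le_rfl
    fun q _ hq => ?_
  rw [cstm0_A (hq.le.trans hb)]
  linarith

theorem lrI (c0 : ℕ) {b0 : ℝ} (h1 : 33 / 2 < b0) :
    LP H579.parA c0 b0 [(25, -5, 159), (28, -6, 184), (30, -5, 156), (32, -3, 96)] := by
  rw [parA_eq]
  have key : ∀ (a b : ℝ), 33 / 2 < a → b ≤ 32 → ∀ ψ : ℝ → ℝ,
      (∀ q, a ≤ q → q < b → H404.phiA DesA q ≤ ψ q) → LR DesA c0 a b ψ := by
    intro a b ha hb ψ hψ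
    exact (lr_lineA c0 ha).cut le_rfl le_rfl hψ
  refine ⟨key b0 25 h1 (by norm_num) _ fun q h2 h3 => ?_,
    key 25 28 (by norm_num) (by norm_num) _ fun q h2 h3 => ?_,
    key 28 30 (by norm_num) (by norm_num) _ fun q h2 h3 => ?_,
    key 30 32 (by norm_num) (by norm_num) _ fun q h2 h3 => ?_, trivial⟩
  · rw [lineA_1 (by linarith) h3.le]; linarith
  · rw [lineA_2 h2 (by linarith), min_eq_right (by linarith), min_eq_right (by linarith)]
    linarith
  · rw [lineA_2 (by linarith) (by linarith), min_eq_left (by linarith),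
      min_eq_right (by linarith)]
    linarith
  · rw [lineA_2 (by linarith) h3.le, min_eq_left (by linarith), min_eq_left (by linarith)]
    linarith

theorem lrMid {c0 : ℕ} (hin : H392.MidIn c0) :
    LP H579.parA c0 13 [(15, -5, 143), (16, -1, 83), (86 / 5, 5, -13)] := by
  have key : ∀ (a b c d : ℝ) (yf : ℕ → ℕ → ℕ), 13 ≤ a → b ≤ 86 / 5 →
      (∀ s p : ℕ, 13 * s ≤ p → 5 * p < 86 * s → a * s ≤ p → (p : ℝ) < b * s →
        27 * s ≤ 2 * p + yf s p ∧ yf s p + p ≤ 27 * s ∧ yf s p ≤ p ∧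
        -((c * p + d * s : ℝ)) ≤ (H792.gainA s p (yf s p) : ℝ) - (65 * s + p)) →
      LR H579.parA c0 a b (fun q => c * q + d) := by
    intro a b c d yf ha hb hy δ hδ η hη
    obtain ⟨s1, hs1⟩ := exists_nat_gt ((25 * c0 + 1) / η : ℝ)
    refine ⟨max s1 (c0 + 2), fun s hs x p hpp hp2 hxp _ hap hbp σ hσ hdet => ?_⟩
    have := Fact.mk hpp
    have hsc : c0 + 2 ≤ s := (le_max_right _ _).trans hs
    have hs0 : (0 : ℝ) < s := by
      have : 1 ≤ s := by omega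
      exact_mod_cast this
    have hss1 : (s1 : ℝ) ≤ s := by exact_mod_cast (le_max_left _ _).trans hs
    have hC : (25 * c0 + 1 : ℝ) ≤ η * s := by
      have h1 := (div_lt_iff₀ hη).1 hs1
      have h2 := mul_le_mul_of_nonneg_right hss1 hη.le
      linarith
    rw [le_div_iff₀ hs0] at hap
    rw [div_lt_iff₀ hs0] at hbp
    have n1 : 13 * s ≤ p := by
      have : (13 : ℝ) * s ≤ p := by nlinarith
      exact_mod_cast this
    have n2 : 5 * p < 86 * s := by
      have : (5 : ℝ) * p < 86 * s := by nlinarith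
      exact_mod_cast this
    have hp5 : 5 ≤ p := by omega
    have hsq : 32 * s + c0 + 2 ≤ p ^ 2 := by nlinarith
    have hxn := H792.norm_x_le_one hxp
    obtain ⟨y1, y2, y3, y4⟩ := hy s p n1 n2 hap hbp
    have g := H392.count_A hin p hp5 s (yf s p) x σ hσ hdet hxn (by omega) y1 (by omega) y2 hsq
      (by omega) y3
    have h7 := H792.sum_wg_A hσ
    have h8 := H792.latIdx_B (p := p) (D := H579.parA.D0 * s) (by omega) (by
      have : H579.parA.D0 = 27 := rfl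
      rw [this]; omega)
    rw [h8] at g
    have hD : ((H579.parA.D0 * s : ℕ) : ℤ) = 27 * s := by
      have : H579.parA.D0 = 27 := rfl
      rw [this]; push_cast; ring
    rw [hD] at g
    have g2 : (H792.gainA s p (yf s p) - (65 * s + p) - (25 * c0 + 1) : ℤ)
        ≤ padicValRat p (Mx (H579.parA.D0 * s) x σ).det := by linarith
    have g3 : ((H792.gainA s p (yf s p) : ℝ) - (65 * s + p) - (25 * c0 + 1))
        ≤ (padicValRat p (Mx (H579.parA.D0 * s) x σ).det : ℝ) := by exact_mod_cast g2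
    have hps : (s : ℝ) * ((p : ℝ) / s) = p := by field_simp
    have e : (s : ℝ) * (c * ((p : ℝ) / s) + d + η) = c * (s * ((p : ℝ) / s)) + d * s + η * s := by
      ring
    rw [e, hps]
    linarith
  refine ⟨key 13 15 (-5) 143 (fun s _ => 2 * s) le_rfl (by norm_num) ?_,
    key 15 16 (-1) 83 (fun s p => 32 * s - 2 * p) (by norm_num) (by norm_num) ?_,
    key 16 (86 / 5) 5 (-13) (fun _ _ => 0) (by norm_num) le_rfl ?_, trivial⟩
  · intro s p n1 n2 hap hbp
    have m1 : p < 15 * s := by exact_mod_cast hbp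
    refine ⟨by omega, by omega, by omega, ?_⟩
    have e : H792.gainA s p (2 * s) = 6 * p - 78 * s := by
      unfold H792.gainA
      omega
    rw [e]
    push_cast
    linarith
  · intro s p n1 n2 hap hbp
    have m0 : 15 * s ≤ p := by exact_mod_cast hap
    have m1 : p < 16 * s := by exact_mod_cast hbp
    refine ⟨by omega, by omega, by omega, ?_⟩
    have e : H792.gainA s p (32 * s - 2 * p) = 2 * p - 18 * s := by
      unfold H792.gainA
      omega
    rw [e]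
    push_cast
    linarith
  · intro s p n1 n2 hap hbp
    have m0 : 16 * s ≤ p := by exact_mod_cast hap
    refine ⟨by omega, by omega, by omega, ?_⟩
    have e : H792.gainA s p 0 = 78 * s - 4 * p := by
      unfold H792.gainA
      omega
    rw [e]
    push_cast
    linarith

/-- the pieces of the dip, up to `11` -/
theorem lrDip {c0 : ℕ} (h : LR H579.parA c0 9 (47 / 4) H641.phiDip) :
    LP H579.parA c0 9 [(10, -2, 92), (32 / 3, -1, 82), (11, 5, 18)] := by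
  refine ⟨LR.cut h le_rfl (by norm_num) fun q h1 h2 => ?_,
    LR.cut h (by norm_num) (by norm_num) fun q h1 h2 => ?_,
    LR.cut h (by norm_num) (by norm_num) fun q h1 h2 => ?_, trivial⟩
  · unfold H641.phiDip
    rw [if_pos h2]; linarith
  · unfold H641.phiDip
    rw [if_neg (by linarith), if_pos h2]; linarith
  · unfold H641.phiDip
    rw [if_neg (by linarith), if_neg (by linarith)]; linarith

end pieces

/-! ### the glue -/

section glue

open Vale.Agent.P030.H404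

theorem odU_of_local (P : Par) (c0 H : ℕ) (hH : ∀ g, P.ht g ≤ H) {φ : ℝ → ℝ} {b M : ℝ}
    (hb : 0 < b) (hHb : (H : ℝ) ≤ b) (hM : ∀ t ∈ Ioo 0 b, |φ t| ≤ M)
    (hφ : ∀ δ : ℝ, 0 < δ → ∃ E : Finset ℝ, ContinuousOn φ (Ioo δ b \ E))
    (hloc : LR P c0 0 b φ) :
    OdU P c0 (∫ t in (0 : ℝ)..b, φ t) := by
  classical
  intro ε hε
  obtain ⟨δ, hδ0, η, hη0, s1, h1⟩ := cost_le P.D0 H c0 1 one_ne_zero hb hM hφ hε
  obtain ⟨s2, h2⟩ := hloc δ hδ0 η hη0
  refine ⟨max s1 s2, fun s hs => ?_⟩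
  obtain ⟨g1, g2⟩ := h1 s ((le_max_left _ _).trans hs)
  have k2 := h2 s ((le_max_right _ _).trans hs)
  have hs0 : (0 : ℝ) < s := by
    rcases Nat.eq_zero_or_pos s with h | h
    · rw [h] at g1
      push_cast at g1
      linarith
    · exact_mod_cast h
  refine ⟨SS b (c0 + 1 + 5) s, cst P.D0 (H * s + c0 + 2) 1 φ b δ η s,
    fun p hp => (Finset.mem_filter.1 hp).2, g2, ?_⟩
  intro x hx σ hσ hdet p hpp hp2
  have := Fact.mk hpp
  have htriv := val_det_ge hp2 (P.D0 * s) x σ (H * s + c0) (fun c => lt_of_lt_of_le (hσ.2 c)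
    (Nat.add_le_add_right (Nat.mul_le_mul_right s (hH _)) c0)) hdet
  rw [hx] at htriv
  split_ifs with hpS
  · by_cases hm : δ * s < p ∧ (p : ℝ) < b * s
    · rw [cst, if_pos hm]
      have hdp : x.den < p := by rw [hx]; exact hpp.one_lt
      have h3 := k2 x p hpp hp2 hdp hm.1 (by positivity) ((div_lt_iff₀ hs0).2 hm.2) σ hσ hdet
      have h4 : (-(padicValRat p (Mx (P.D0 * s) x σ).det) : ℤ) ≤ ⌈(s : ℝ) * (φ (p / s) + η)⌉ := by
        have h5 := Int.le_ceil ((s : ℝ) * (φ (p / s) + η))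
        have h6 : ((-(padicValRat p (Mx (P.D0 * s) x σ).det) : ℤ) : ℝ)
            ≤ ((⌈(s : ℝ) * (φ (p / s) + η)⌉ : ℤ) : ℝ) := by
          push_cast
          linarith
        exact_mod_cast h6
      linarith
    · rw [cst, if_neg hm]
      exact htriv
  · have hbig : ⌊b * (s : ℝ)⌋₊ + (c0 + 1 + 5) ≤ p := by
      by_contra h
      exact hpS (Finset.mem_filter.2 ⟨Finset.mem_range.2 (not_le.1 h), hpp, hp2⟩)
    have hHs : H * s ≤ ⌊b * (s : ℝ)⌋₊ := by
      refine Nat.le_floor ?_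
      push_cast
      exact mul_le_mul_of_nonneg_right hHb hs0.le
    have h1 : Nat.log p (H * s + c0 + 2) = 0 := Nat.log_of_lt (by omega)
    rw [h1] at htriv
    simpa using htriv

end glue

open Vale.Agent.P030.H778 in
/-- **the odd part of design A, uniformly** -/
theorem odU_A (c0 : ℕ) : OdU H579.parA c0 (104393 / 60) := by
  obtain ⟨m1, m2, m3, -⟩ := lrDip (lr_dip (H792.redAll c0))
  obtain ⟨n1, n2, n3, -⟩ := lrMid (H792.midIn c0)
  have hK := lr_kap (H792.kapAll c0)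
  set L : List (ℝ × ℝ × ℝ) := [(9, 1, 65), (10, -2, 92), (32 / 3, -1, 82),
    (11, 5, 18), (25 / 2, 3, 40), (13, 1, 65), (15, -5, 143), (16, -1, 83),
    (86 / 5, 5, -13), (25, -5, 159), (28, -6, 184), (30, -5, 156), (32, -3, 96)] with hL
  have hS : pwS 0 L := by norm_num [hL, pwS]
  have hE : pwE 0 L = 32 := rfl
  have hP : LP H579.parA c0 0 L :=
    ⟨lr0 c0 (by norm_num), m1, m2, m3, LR.cut hK (by norm_num) le_rfl fun q _ _ => by linarith,
      lr0 c0 (by norm_num), n1, n2, n3, lrI c0 (by norm_num)⟩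
  have hI : pwI 0 L = 104393 / 60 := by norm_num [hL, pwI]
  have hPI := PI_pw hS
  rw [hE, hI] at hPI
  rw [← hPI.2]
  have hloc := lr_pw hS hP
  rw [hE] at hloc
  refine odU_of_local H579.parA c0 32 (fun g => by cases g <;> decide) (by norm_num)
    (by norm_num) (M := pwM 32 L) (fun t ht => abs_pw_le ht.1.le ht.2.le _)
    (fun δ hδ => ⟨(L.map Prod.fst).toFinset, ?_⟩) hloc
  rintro t ⟨_, ht⟩
  refine (contAt_pw fun e he h => ht ?_).continuousWithinAt
  rw [Finset.mem_coe, List.mem_toFinset, List.mem_map]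
  exact ⟨e, he, h.symm⟩

end Vale.Agent.N030
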