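import Vale.Agent.N030.Fin

namespace Vale.Agent.N030

/-- **Catalan's constant `G = β(2) = ∑_{j ≥ 0} (-1)^j / (2j+1)^2` has irrationality
exponent at most `1671`**: for all large `q` and all integers `p`, `|G - p/q| > q^(-1671)`.
In particular `G` is not a Liouville number. -/
theorem oldCatalanMeasure :
    (∃ q0 : ℕ, ∀ q : ℕ, q0 ≤ q → ∀ p : ℤ,
      1 / (q : ℝ) ^ 1671 < |(∑' j : ℕ, (-1 : ℝ) ^ j / (2 * (j : ℝ) + 1) ^ 2) - (p : ℝ) / q|) ∧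
    ¬ Liouville (∑' j : ℕ, (-1 : ℝ) ^ j / (2 * (j : ℝ) + 1) ^ 2) :=
  ⟨Vale.Agent.N030.measure_pow, Vale.Agent.N030.not_liouville⟩

end Vale.Agent.N030
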